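import Mathlib
import Vale.Agent.P321.H505.Train

/-!
# LB2, T-step: combinatorial core, definitions and statements (helper576)

Cells are integers `t`, one `v` per cell, at the integer position `C * t + label`.
`B S` is the word `Y .. v .. Y .. v .. Y` with the `v`'s at the positions in `S : Finset ℤ`.
-/

namespace Vale.Agent.P321.H576

open Finset

/-- directions: pairs of trains -/
abbrev E (k : ℕ) := {e : Finset (Fin k) // e.card = 2}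

/-- `0/1` value of a digit -/
def val (b : Bool) : ℤ := if b then 1 else 0

/-- the sign of a digit vector -/
def sg {ι : Type*} [Fintype ι] (n : ι → Bool) : ℝ := ∏ b, (if n b then (-1 : ℝ) else 1)

/-- direction 0 -/
def T0 {m : ℕ} (a : Fin m → ℤ) : ℤ := ∑ b, a b * 3 ^ (b : ℕ)

/-- one direction `e` -/
def Te {m : ℕ} (g : Fin m → ℤ) (a : Fin m → ℤ) : ℤ := ∑ b, a b * g b

/-- all directions `e` -/
def Ts {k m : ℕ} (g a : E k → Fin m → ℤ) : ℤ := ∑ e, Te (g e) (a e)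

/-- `s(n)` -/
def S {k m : ℕ} (g : E k → Fin m → ℤ) (n : E k → Fin m → Bool) : ℤ :=
  Ts g fun e b => val (n e b)

/-- `T_0(n_0)` -/
def Z {m : ℕ} (n : Fin m → Bool) : ℤ := T0 fun b => val (n b)

/-- the sign of all the digits `n_e` -/
noncomputable def sgE {k m : ℕ} (n : E k → Fin m → Bool) : ℝ := ∏ e, sg (n e)

/-- train `i` is active at cell `t` -/
def Act {k m : ℕ} (d : Fin k → ℤ) (g : E k → Fin m → ℤ) (i : Fin k) (t : ℤ) : Prop :=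
  ∃ (n0 : Fin m → Bool) (n : E k → Fin m → Bool), d i ∣ t - (Z n0 + S g n)

open Classical in
/-- the active set at cell `t` -/
noncomputable def act {k m : ℕ} (d : Fin k → ℤ) (g : E k → Fin m → ℤ) (t : ℤ) : Finset (Fin k) :=
  univ.filter fun i => Act d g i t

/-- tops -/
def Top {k m : ℕ} (g : E k → Fin m → ℤ) (t : ℤ) : Prop :=
  ∃ (n0 : Fin m → Bool) (n : E k → Fin m → Bool), t = Z n0 + S g n

/-- GEN, what the T-step needs (helper328). `F = P^2 e^{-K}`, `Q = P^3 e^{-K}`. -/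
structure Gen {k m : ℕ} (d : Fin k → ℤ) (g : E k → Fin m → ℤ) (F Q G : ℤ) : Prop where
  k3 : 3 ≤ k
  m1 : 1 ≤ m
  g0 : ∀ e b, 0 ≤ g e b
  gG : ∀ e b, g e b ≤ G
  dvd : ∀ i (e : E k) b, i ∈ e.1 → d i ∣ g e b
  gen1 : ∀ i (δ0 : Fin m → ℤ) (δ : E k → Fin m → ℤ), (∀ b, |δ0 b| ≤ 2) → (∀ e b, |δ e b| ≤ 1) →
    d i ∣ T0 δ0 + Ts g δ → (∀ b, δ0 b = 0) ∧ ∀ e : E k, i ∉ e.1 → ∀ b, δ e b = 0
  gen2 : ∀ i j, i ≠ j → ∀ a : ℤ, |a| ≤ 3 * F → ∀ (δ0 δ0' : Fin m → ℤ) (δ δ' : E k → Fin m → ℤ),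
    (∀ b, |δ0 b| ≤ 1) → (∀ b, |δ0' b| ≤ 1) → (∀ e b, |δ e b| ≤ 1) → (∀ e b, |δ' e b| ≤ 1) →
    d i ∣ a - (T0 δ0 + Ts g δ) → d j ∣ a - (T0 δ0' + Ts g δ') →
    ∃ η : Fin m → ℤ, (∀ b, |η b| ≤ 1) ∧ a = T0 η
  gen3 : ∀ t : ℤ, |t| ≤ Q → ∀ i j l, i ≠ j → i ≠ l → j ≠ l →
    Act d g i t → Act d g j t → Act d g l t → Top g t
  F3 : (3 : ℤ) ^ m ≤ F
  FQ : 16 * F ≤ Q
  GQ : 16 * (k ^ 2 * m * G) ≤ Q

/-- PR + label system (helper505) -/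
structure PR {k : ℕ} (m : ℕ) (l : Finset (Fin k) → ℕ) (w w' Lb : ℕ) : Prop where
  mom : ∀ i < m, (w : ℤ) ^ i + (w' : ℤ) ^ i =
    2 * ∑ K ∈ H505.smallK k, H505.co k K.card * (l K : ℤ) ^ i
  hl : ∀ K, l K ≤ Lb
  hw : w ≤ Lb
  hw' : w' ≤ Lb

/-- the labels of `X` (`lp`) and `X'` (`lm`) -/
structure Lab {k m : ℕ} (d : Fin k → ℤ) (g : E k → Fin m → ℤ) (Q : ℤ)
    (l : Finset (Fin k) → ℕ) (w w' Lb : ℕ) (lp lm : ℤ → ℕ) : Prop where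
  top1 : ∀ (n0 : Fin m → Bool) (n : E k → Fin m → Bool), sg n0 * sgE n = 1 → lp (Z n0 + S g n) = w ∧ lm (Z n0 + S g n) = w'
  top2 : ∀ (n0 : Fin m → Bool) (n : E k → Fin m → Bool), sg n0 * sgE n = -1 → lp (Z n0 + S g n) = w' ∧ lm (Z n0 + S g n) = w
  eq : ∀ t, ¬ Top g t → lp t = lm t
  cen : ∀ t, |t| ≤ Q → ¬ Top g t → lp t = l (act d g t)
  lb : ∀ t, lp t ≤ Lb ∧ lm t ≤ Lb

/-- positions of a set of cells -/
def pos (C : ℤ) (l : ℤ → ℕ) (A : Finset ℤ) : Finset ℤ := A.image fun t => C * t + l t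

/-- fine: all cells of `A` are within `2 F` of each other -/
def Fine (F : ℤ) (A : Finset ℤ) : Prop := ∀ s ∈ A, ∀ t ∈ A, |s - t| ≤ 2 * F

instance (F : ℤ) (A : Finset ℤ) : Decidable (Fine F A) := by unfold Fine; infer_instance

section

variable {V : Type} [AddCommGroup V] [Module ℝ V]

/-- the contribution of the set `A` of cells -/
noncomputable def Dl (B : Finset ℤ → V) (C : ℤ) (lp lm : ℤ → ℕ) (A : Finset ℤ) : V :=
  B (pos C lm A) - B (pos C lp A)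

/-- KILL, direction `e`: translate a whole pattern (at most 3 `v`'s) in the window `|x| ≤ C Q` -/
def KillE (p : Seminorm ℝ V) (B : Finset ℤ → V) {k m : ℕ} (g : E k → Fin m → ℤ) (C Q : ℤ)
    (κ : ℝ) : Prop :=
  ∀ (e : E k) (R : Finset ℤ), R.card ≤ 3 → (∀ x ∈ R, |x| ≤ C * Q) →
    p (∑ n : Fin m → Bool, sg n • B (R.image fun x => x + C * Te (g e) (fun b => val (n b)))) ≤ κ

/-- KILL, direction 0: move one `v` near the centre, another one far away fixed -/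
def Kill0 (p : Seminorm ℝ V) (B : Finset ℤ → V) (m : ℕ) (C Q : ℤ) (κ : ℝ) : Prop :=
  ∀ x y : ℤ, 4 * |x| ≤ C * Q → C * Q ≤ 8 * |x - y| →
    p (∑ n : Fin m → Bool, sg n • B {x + C * Z n, y}) ≤ κ

/-- KILL, PR error: one `v` at the positions `x + j n` with coefficients `c n` with vanishing
moments, another one at distance at least `C F / 2` -/
def KillP (p : Seminorm ℝ V) (B : Finset ℤ → V) (m : ℕ) (Lb : ℕ) (C Q F : ℤ) (κ : ℝ) : Prop :=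
  ∀ x y : ℤ, |x| ≤ C * Q → |y| ≤ C * Q → C * F ≤ 2 * |x - y| →
    ∀ (ι : Type) (J : Finset ι) (c : ι → ℝ) (j : ι → ℕ),
    (∀ n ∈ J, j n ≤ Lb) → (∀ i < m, ∑ n ∈ J, c n * (j n : ℝ) ^ i = 0) →
    p (∑ n ∈ J, c n • B {x + j n, y}) ≤ (∑ n ∈ J, |c n|) * κ

end

/-- **(F)**, helper576: the fine sets with at most 3 cells; all cells are `Icc (-L1) L2`. -/
def StFine : Prop :=
  ∀ (V : Type) [AddCommGroup V] [Module ℝ V] (p : Seminorm ℝ V) (B : Finset ℤ → V)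
    {k m : ℕ} (d : Fin k → ℤ) (g : E k → Fin m → ℤ) (F Q G C L1 L2 : ℤ)
    (l : Finset (Fin k) → ℕ) (w w' Lb : ℕ) (lp lm : ℤ → ℕ) (κ : ℝ),
    Gen d g F Q G → Lab d g Q l w w' Lb lp lm → 4 * (Lb : ℤ) ≤ C → 1 ≤ C →
    Q ≤ L1 → Q ≤ L2 → KillE p B g C Q κ →
    p (∑ A ∈ (Icc (-L1) L2).powerset with A.card ≤ 3 ∧ Fine F A, Dl B C lp lm A)
      ≤ 2 ^ (k ^ 2 * m + 1) * (8 * (F : ℝ)) ^ 3 * κ

/-- **(C)**: the coarse pairs (not fine, 2 cells), = FAR (helper535) + MIDDLE (helper834) -/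
def StCoarse : Prop :=
  ∀ (V : Type) [AddCommGroup V] [Module ℝ V] (p : Seminorm ℝ V) (B : Finset ℤ → V)
    {k m : ℕ} (d : Fin k → ℤ) (g : E k → Fin m → ℤ) (F Q G C L1 L2 : ℤ)
    (l : Finset (Fin k) → ℕ) (w w' Lb : ℕ) (lp lm : ℤ → ℕ) (κ κ0 κP : ℝ),
    Gen d g F Q G → PR m l w w' Lb → Lab d g Q l w w' Lb lp lm → 4 * (Lb : ℤ) ≤ C → 1 ≤ C →
    Q ≤ L1 → Q ≤ L2 → KillE p B g C Q κ → Kill0 p B m C Q κ0 → KillP p B m Lb C Q F κP →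
    p (∑ A ∈ (Icc (-L1) L2).powerset with A.card = 2 ∧ ¬ Fine F A, Dl B C lp lm A)
      ≤ 2 ^ (k ^ 2 * m + m + 4) * ((L1 : ℝ) + L2 + 1) * (k + 2) ^ 4 * (κ + κ0 + κP)

/-- the single `v`'s without context (only direction 0), helper576 -/
def StOne : Prop :=
  ∀ (V : Type) [AddCommGroup V] [Module ℝ V] (p : Seminorm ℝ V) (B : Finset ℤ → V)
    {k m : ℕ} (d : Fin k → ℤ) (g : E k → Fin m → ℤ) (F Q G C L1 L2 : ℤ)
    (l : Finset (Fin k) → ℕ) (w w' Lb : ℕ) (lp lm : ℤ → ℕ) (κ0 : ℝ),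
    Gen d g F Q G → Lab d g Q l w w' Lb lp lm → 4 * (Lb : ℤ) ≤ C → 1 ≤ C →
    Q ≤ L1 → Q ≤ L2 →
    (∀ x : ℤ, 4 * |x| ≤ C * Q → p (∑ n : Fin m → Bool, sg n • B {x + C * Z n}) ≤ κ0) →
    p (∑ A ∈ (Icc (-L1) L2).powerset with A.card = 1, Dl B C lp lm A)
      ≤ 2 ^ (k ^ 2 * m + 1) * κ0

end Vale.Agent.P321.H576
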