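import Vale.Agent.P321.H576.Basic

/-! # LB2, T-step: the fine sets (helper576) -/

namespace Vale.Agent.P321.H576

open Finset

variable {k m : ℕ} {d : Fin k → ℤ} {g : E k → Fin m → ℤ} {F Q G : ℤ}

/-- translate of a set of cells -/
def tr (A : Finset ℤ) (s : ℤ) : Finset ℤ := A.image fun t => t + s

theorem mem_tr {A : Finset ℤ} {s t : ℤ} : t ∈ tr A s ↔ t - s ∈ A := by
  unfold tr
  rw [mem_image]
  constructor
  · rintro ⟨a, ha, rfl⟩; rwa [add_sub_cancel_right]
  · intro h; exact ⟨t - s, h, by ring⟩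

theorem card_tr (A : Finset ℤ) (s : ℤ) : (tr A s).card = A.card :=
  card_image_of_injective _ fun a b h => by simpa using h

theorem fine_tr {A : Finset ℤ} {s : ℤ} (h : Fine F A) : Fine F (tr A s) := by
  intro a ha b hb
  have := h _ (mem_tr.mp ha) _ (mem_tr.mp hb)
  have e : a - s - (b - s) = a - b := by ring
  rwa [e] at this

theorem tr_tr (A : Finset ℤ) (s : ℤ) : tr (tr A s) (-s) = A := by
  ext t
  rw [mem_tr, mem_tr]
  have : t - -s - s = t := by ring
  rw [this]

/-- the sets of offsets -/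
noncomputable def Off (m : ℕ) (F : ℤ) : Finset (Finset ℤ) := by
  classical
  exact (Icc (-(3 * F)) (3 * F)).powerset.filter fun A =>
    (A.card ≤ 3 ∧ Fine F A) ∧ ∃ n0 : Fin m → Bool, Z n0 ∈ A

theorem mem_Off {A : Finset ℤ} : A ∈ Off m F ↔ A ⊆ Icc (-(3 * F)) (3 * F) ∧
    (A.card ≤ 3 ∧ Fine F A) ∧ ∃ n0 : Fin m → Bool, Z n0 ∈ A := by
  classical
  unfold Off
  rw [mem_filter, mem_powerset]

theorem card_Off (hF : 1 ≤ F) : ((Off m F).card : ℝ) ≤ (8 * (F : ℝ)) ^ 3 := by
  classical
  have h1 : Off m F ⊆ (range 4).biUnion fun j => powersetCard j (Icc (-(3 * F)) (3 * F)) := by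
    intro A hA
    rw [mem_Off] at hA
    rw [mem_biUnion]
    exact ⟨A.card, by rw [mem_range]; omega, by rw [mem_powersetCard]; exact ⟨hA.1, rfl⟩⟩
  have h2 := (card_le_card h1).trans card_biUnion_le
  simp only [card_powersetCard] at h2
  set M := (Icc (-(3 * F)) (3 * F)).card with hM
  have hM' : (M : ℤ) = 6 * F + 1 := by
    rw [hM, Int.card_Icc]
    have : (3 * F + 1 - -(3 * F)).toNat = (6 * F + 1).toNat := by congr 1; ring
    rw [this, Int.toNat_of_nonneg (by linarith)]
  have h3 : ∑ j ∈ range 4, M.choose j ≤ (M + 1) ^ 3 := by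
    have a0 := Nat.choose_le_pow M 0
    have a1 := Nat.choose_le_pow M 1
    have a2 := Nat.choose_le_pow M 2
    have a3 := Nat.choose_le_pow M 3
    rw [sum_range_succ, sum_range_succ, sum_range_succ, sum_range_succ, sum_range_zero]
    nlinarith [Nat.zero_le M, Nat.zero_le (M ^ 2)]
  have h4 : ((Off m F).card : ℝ) ≤ ((M + 1 : ℕ) : ℝ) ^ 3 := by
    exact_mod_cast h2.trans h3
  refine h4.trans ?_
  have h5 : ((M : ℤ) : ℝ) = 6 * F + 1 := by rw [hM']; push_cast; ring
  have hF' : (1 : ℝ) ≤ F := by exact_mod_cast hF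
  have h6 : ((M + 1 : ℕ) : ℝ) ≤ 8 * F := by
    push_cast
    have : (M : ℝ) = ((M : ℤ) : ℝ) := by norm_cast
    rw [this, h5]
    linarith
  exact pow_le_pow_left₀ (by positivity) h6 3

section

variable {V : Type} [AddCommGroup V] [Module ℝ V]

theorem psum_le {ι : Type*} (p : Seminorm ℝ V) (s : Finset ι) (f : ι → V) :
    p (∑ i ∈ s, f i) ≤ ∑ i ∈ s, p (f i) :=
  Finset.le_sum_of_subadditive p (map_zero p).le (map_add_le_add p) s f

omit [Module ℝ V] in
theorem Dl_notTop {B : Finset ℤ → V} {C : ℤ} {l : Finset (Fin k) → ℕ} {w w' Lb : ℕ}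
    {lp lm : ℤ → ℕ} (hL : Lab d g Q l w w' Lb lp lm) {A : Finset ℤ} (hA : ∀ t ∈ A, ¬ Top g t) :
    Dl B C lp lm A = 0 := by
  have : pos C lm A = pos C lp A := by
    unfold pos
    refine image_congr fun t ht => ?_
    rw [hL.eq t (hA t ht)]
  rw [Dl, this, sub_self]

omit [Module ℝ V] in
/-- the reorganisation of the sum over the fine sets -/
theorem sum_fine (hG : Gen d g F Q G) {B : Finset ℤ → V} {C L1 L2 : ℤ} {l : Finset (Fin k) → ℕ}
    {w w' Lb : ℕ} {lp lm : ℤ → ℕ} (hL : Lab d g Q l w w' Lb lp lm) (h1 : Q ≤ L1) (h2 : Q ≤ L2) :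
    ∑ A ∈ (Icc (-L1) L2).powerset with A.card ≤ 3 ∧ Fine F A, Dl B C lp lm A
      = ∑ A ∈ Off m F, ∑ n : E k → Fin m → Bool, Dl B C lp lm (tr A (S g n)) := by
  classical
  rw [← sum_product']
  symm
  have hF := F_pos hG
  have hFQ := hG.FQ
  have hsub : ∑ A ∈ (Icc (-L1) L2).powerset with (A.card ≤ 3 ∧ Fine F A) ∧ ∃ t ∈ A, Top g t,
      Dl B C lp lm A = ∑ A ∈ (Icc (-L1) L2).powerset with A.card ≤ 3 ∧ Fine F A,
      Dl B C lp lm A := by
    refine sum_subset (fun A hA => ?_) fun A hA hA' => ?_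
    · rw [mem_filter] at hA ⊢
      exact ⟨hA.1, hA.2.1⟩
    · rw [mem_filter] at hA hA'
      refine Dl_notTop hL fun t ht hT => hA' ⟨hA.1, hA.2, t, ht, hT⟩
  rw [← hsub]
  refine sum_bij (fun x _ => tr x.1 (S g x.2)) ?_ ?_ ?_ ?_
  · rintro ⟨A, n⟩ hx
    rw [mem_product] at hx
    obtain ⟨hA, -⟩ := hx
    rw [mem_Off] at hA
    obtain ⟨hA1, ⟨hA2, hA3⟩, n0, hn0⟩ := hA
    rw [mem_filter, mem_powerset]
    refine ⟨fun t ht => ?_, ⟨?_, fine_tr hA3⟩, Z n0 + S g n, ?_, n0, n, rfl⟩
    · have h3 := hA1 (mem_tr.mp ht)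
      rw [mem_Icc] at h3 ⊢
      have h4 := S_nonneg hG n
      have h5 := S_le hG n
      simp only at h3
      constructor <;> linarith [h3.1, h3.2]
    · simp only [card_tr]; exact hA2
    · rw [mem_tr, add_sub_cancel_right]; exact hn0
  · rintro ⟨A, n⟩ hx ⟨A', n'⟩ hx' h
    rw [mem_product] at hx hx'
    have hA := mem_Off.mp hx.1
    have hA' := mem_Off.mp hx'.1
    obtain ⟨n0, hn0⟩ := hA.2.2
    obtain ⟨n0', hn0'⟩ := hA'.2.2
    simp only at h hn0 hn0'
    have t1 : Z n0 + S g n ∈ tr A (S g n) := by rw [mem_tr, add_sub_cancel_right]; exact hn0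
    have t2 : Z n0' + S g n' ∈ tr A (S g n) := by
      rw [h, mem_tr, add_sub_cancel_right]; exact hn0'
    have h3 := (fine_tr (s := S g n) hA.2.1.2) _ t1 _ t2
    have h4 : n = n' := top_close hG (h3.trans (by linarith))
    subst h4
    have h5 : A = A' := by
      have := congrArg (fun X => tr X (-(S g n))) h
      simpa only [tr_tr] using this
    rw [h5]
  · intro A hA
    rw [mem_filter, mem_powerset] at hA
    obtain ⟨hA1, ⟨hA2, hA3⟩, t, ht, n0, n, rfl⟩ := hA
    refine ⟨(tr A (-(S g n)), n), ?_, ?_⟩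
    · rw [mem_product]
      refine ⟨?_, mem_univ _⟩
      rw [mem_Off]
      refine ⟨fun a ha => ?_, ⟨by simp only [card_tr]; exact hA2, fine_tr hA3⟩, n0, ?_⟩
      · have h3 := hA3 _ (mem_tr.mp ha) _ ht
        have h4 := abs_le.mp h3
        have h5 := Z_nonneg n0
        have h6 := Z_le_F hG n0
        rw [mem_Icc]
        constructor <;> linarith [h4.1, h4.2]
      · change Z n0 ∈ tr A (-(S g n))
        rw [mem_tr, sub_neg_eq_add]; exact ht
    · change tr (tr A (-(S g n))) (S g n) = A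
      have := tr_tr A (-(S g n))
      rwa [neg_neg] at this
  · rintro ⟨A, n⟩ _
    rfl

/-- the direction which kills a fine set -/
theorem exists_dir (hG : Gen d g F Q G) {A : Finset ℤ} (hA : A ∈ Off m F) :
    ∃ e : E k, ∀ a ∈ A, (∀ n0 : Fin m → Bool, a ≠ Z n0) →
      ∀ i, (∃ n, Act d g i (S g n + a)) → i ∈ e.1 := by
  classical
  rw [mem_Off] at hA
  obtain ⟨hA1, ⟨hA2, hA3⟩, n0, hn0⟩ := hA
  have hk := hG.k3
  -- the trains hit by the offset `a`
  let hit : ℤ → Finset (Fin k) := fun a => univ.filter fun i => ∃ n, Act d g i (S g n + a)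
  have hhit : ∀ a ∈ A, (∀ n0 : Fin m → Bool, a ≠ Z n0) → (hit a).card ≤ 1 := by
    intro a ha hZ
    rw [card_le_one]
    intro i hi j hj
    by_contra hij
    simp only [hit, mem_filter, mem_univ, true_and] at hi hj
    obtain ⟨n, hn⟩ := hi
    obtain ⟨n', hn'⟩ := hj
    have h3 := hA1 ha
    rw [mem_Icc] at h3
    obtain ⟨x, hx⟩ := two_hit hG hij (abs_le.mpr h3) hn hn'
    exact hZ x hx
  let A' := A.filter fun a => ∀ n0 : Fin m → Bool, a ≠ Z n0
  have hA' : A'.card ≤ 2 := by
    have : A' ⊆ A.erase (Z n0) := by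
      intro a ha
      rw [mem_filter] at ha
      rw [mem_erase]
      exact ⟨ha.2 n0, ha.1⟩
    have h3 := card_le_card this
    rw [card_erase_of_mem hn0] at h3
    omega
  have hH : (A'.biUnion hit).card ≤ 2 := by
    calc (A'.biUnion hit).card ≤ ∑ a ∈ A', (hit a).card := card_biUnion_le
      _ ≤ ∑ _a ∈ A', 1 := sum_le_sum fun a ha => by
          rw [mem_filter] at ha
          exact hhit a ha.1 ha.2
      _ = A'.card := by simp
      _ ≤ 2 := hA'
  obtain ⟨e, he1, he2⟩ := exists_superset_card_eq hH (by rw [Fintype.card_fin]; omega)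
  refine ⟨⟨e, he2⟩, fun a ha hZ i hi => he1 ?_⟩
  rw [mem_biUnion]
  exact ⟨a, mem_filter.mpr ⟨ha, hZ⟩, by simp only [hit, mem_filter, mem_univ, true_and]; exact hi⟩

/-- the labels under a change of the digits of the killing direction -/
theorem lab_update (hG : Gen d g F Q G) {l : Finset (Fin k) → ℕ} {w w' Lb : ℕ}
    {lp lm : ℤ → ℕ} (hL : Lab d g Q l w w' Lb lp lm) {a : ℤ} (ha : |a| ≤ 3 * F) {e : E k}
    (he : (∀ n0 : Fin m → Bool, a ≠ Z n0) → ∀ i, (∃ n, Act d g i (S g n + a)) → i ∈ e.1)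
    (n : E k → Fin m → Bool) (x : Fin m → Bool) :
    (sg x = 1 → lp (a + S g (Function.update n e x))
        = lp (a + S g (Function.update n e fun _ => false)) ∧
      lm (a + S g (Function.update n e x)) = lm (a + S g (Function.update n e fun _ => false))) ∧
    (sg x = -1 → lp (a + S g (Function.update n e x))
        = lm (a + S g (Function.update n e fun _ => false)) ∧
      lm (a + S g (Function.update n e x)) = lp (a + S g (Function.update n e fun _ => false))) := by
  by_cases hZ : ∀ n0 : Fin m → Bool, a ≠ Z n0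
  · have hq : ∀ n : E k → Fin m → Bool, |a + S g n| ≤ Q := by
      intro n
      have h1 := abs_le.mp ha
      have h2 := S_nonneg hG n
      have h3 := S_le hG n
      have h4 := hG.FQ
      have h5 := F_pos hG
      rw [abs_le]
      constructor <;> linarith [h1.1, h1.2]
    have hn : ∀ n : E k → Fin m → Bool, ¬ Top g (a + S g n) := by
      intro n
      rw [add_comm]
      exact not_top hG ha hZ n
    have key : lp (a + S g (Function.update n e x))
        = lp (a + S g (Function.update n e fun _ => false)) := by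
      rw [hL.cen _ (hq _) (hn _), hL.cen _ (hq _) (hn _)]
      congr 1
      have := act_eq_update hG (he hZ) n x (fun _ => false)
      rwa [add_comm _ a, add_comm _ a] at this
    have e1 := hL.eq _ (hn (Function.update n e x))
    have e2 := hL.eq _ (hn (Function.update n e fun _ => false))
    rw [← e1, ← e2, key]
    simp
  · push Not at hZ
    obtain ⟨n0, rfl⟩ := hZ
    have hs : sg n0 * sgE (Function.update n e x)
        = sg x * (sg n0 * sgE (Function.update n e fun _ => false)) := by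
      rw [sgE_update]; ring
    have hs1 : sg n0 * sgE (Function.update n e fun _ => false) = 1 ∨
        sg n0 * sgE (Function.update n e fun _ => false) = -1 := by
      rcases sg_eq n0 with h | h <;>
        rcases sgE_eq (Function.update n e fun _ => false) with h' | h' <;> rw [h, h'] <;> norm_num
    constructor
    · intro hx
      rw [hx, one_mul] at hs
      rcases hs1 with h | h
      · obtain ⟨a1, a2⟩ := hL.top1 _ _ h
        obtain ⟨b1, b2⟩ := hL.top1 _ _ (hs.trans h)
        rw [a1, a2, b1, b2]; simp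
      · obtain ⟨a1, a2⟩ := hL.top2 _ _ h
        obtain ⟨b1, b2⟩ := hL.top2 _ _ (hs.trans h)
        rw [a1, a2, b1, b2]; simp
    · intro hx
      rw [hx] at hs
      rcases hs1 with h | h
      · obtain ⟨a1, a2⟩ := hL.top1 _ _ h
        obtain ⟨b1, b2⟩ := hL.top2 n0 (Function.update n e x) (by rw [hs, h]; norm_num)
        rw [a1, a2, b1, b2]; simp
      · obtain ⟨a1, a2⟩ := hL.top2 _ _ h
        obtain ⟨b1, b2⟩ := hL.top1 n0 (Function.update n e x) (by rw [hs, h]; norm_num)
        rw [a1, a2, b1, b2]; simp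

/-- digit Fubini -/
theorem fubini (p : Seminorm ℝ V) (f : (E k → Fin m → Bool) → V) (e : E k) {β : ℝ} (hβ : 0 ≤ β)
    (h : ∀ n, p (∑ x : Fin m → Bool, f (Function.update n e x)) ≤ β) :
    p (∑ n, f n) ≤ 2 ^ (k ^ 2 * m) * β := by
  classical
  have hc : (Fintype.card (Fin m → Bool) : ℝ) ≠ 0 := by
    simp
  have e1 : ∑ n : E k → Fin m → Bool, ∑ x : Fin m → Bool, f (Function.update n e x)
      = (Fintype.card (Fin m → Bool) : ℝ) • ∑ n, f n := by
    rw [← Finset.sum_product']
    have : ∑ n : E k → Fin m → Bool, (Fintype.card (Fin m → Bool) : ℝ) • f n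
        = ∑ n : E k → Fin m → Bool, ∑ y : Fin m → Bool, f n := by
      refine sum_congr rfl fun n _ => ?_
      rw [sum_const, card_univ, ← Nat.cast_smul_eq_nsmul ℝ]
    rw [smul_sum, this, ← Finset.sum_product']
    refine sum_bij' (fun x _ => (Function.update x.1 e x.2, x.1 e))
      (fun x _ => (Function.update x.1 e x.2, x.1 e)) ?_ ?_ ?_ ?_ ?_
    · intro x _; simp
    · intro x _; simp
    · rintro ⟨n, x⟩ _
      simp
    · rintro ⟨n, x⟩ _
      simp
    · rintro ⟨n, x⟩ _
      rfl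
  have e2 : ∑ n, f n = (Fintype.card (Fin m → Bool) : ℝ)⁻¹ •
      ∑ n : E k → Fin m → Bool, ∑ x : Fin m → Bool, f (Function.update n e x) := by
    rw [e1, smul_smul, inv_mul_cancel₀ hc, one_smul]
  rw [e2, map_smul_eq_mul, Real.norm_eq_abs, abs_inv, Nat.abs_cast]
  have h3 : p (∑ n : E k → Fin m → Bool, ∑ x : Fin m → Bool, f (Function.update n e x))
      ≤ ∑ _n : E k → Fin m → Bool, β :=
    (psum_le p _ _).trans (sum_le_sum fun n _ => h n)
  rw [sum_const, card_univ, nsmul_eq_mul] at h3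
  have hc1 : (1 : ℝ) ≤ Fintype.card (Fin m → Bool) := by
    have : 1 ≤ Fintype.card (Fin m → Bool) := Fintype.card_pos
    exact_mod_cast this
  have h4 : ((Fintype.card (Fin m → Bool) : ℝ))⁻¹ ≤ 1 := inv_le_one_of_one_le₀ hc1
  have h5 : (Fintype.card (E k → Fin m → Bool) : ℝ) ≤ 2 ^ (k ^ 2 * m) := by
    have : Fintype.card (E k → Fin m → Bool) ≤ 2 ^ (k ^ 2 * m) := by
      rw [Fintype.card_fun, Fintype.card_fun, Fintype.card_bool, Fintype.card_fin, ← pow_mul,
        mul_comm]
      exact Nat.pow_le_pow_right (by norm_num) (Nat.mul_le_mul_right _ (card_E k))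
    exact_mod_cast this
  calc _ ≤ 1 * (Fintype.card (E k → Fin m → Bool) * β) :=
        mul_le_mul h4 h3 (apply_nonneg p _) (by norm_num)
    _ ≤ 2 ^ (k ^ 2 * m) * β := by
        rw [one_mul]
        exact mul_le_mul_of_nonneg_right h5 hβ

theorem kappa_nonneg (hG : Gen d g F Q G) {p : Seminorm ℝ V} {B : Finset ℤ → V} {C : ℤ} {κ : ℝ}
    (hK : KillE p B g C Q κ) : 0 ≤ κ := by
  have hk := hG.k3
  obtain ⟨e, he1, he2⟩ := exists_superset_card_eq (s := (∅ : Finset (Fin k))) (n := 2)
    (by simp) (by rw [Fintype.card_fin]; omega)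
  exact (apply_nonneg p _).trans (hK ⟨e, he2⟩ ∅ (by simp) (by simp))

/-- one set of offsets -/
theorem kill_off (hG : Gen d g F Q G) {p : Seminorm ℝ V} {B : Finset ℤ → V} {C : ℤ}
    {l : Finset (Fin k) → ℕ} {w w' Lb : ℕ} {lp lm : ℤ → ℕ} (hL : Lab d g Q l w w' Lb lp lm)
    {κ : ℝ} (hC : 4 * (Lb : ℤ) ≤ C) (hC1 : 1 ≤ C) (hK : KillE p B g C Q κ) {A : Finset ℤ}
    (hA : A ∈ Off m F) :
    p (∑ n : E k → Fin m → Bool, Dl B C lp lm (tr A (S g n))) ≤ 2 ^ (k ^ 2 * m) * (2 * κ) := by
  classical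
  obtain ⟨e, he⟩ := exists_dir hG hA
  have hκ := kappa_nonneg hG hK
  refine fubini p _ e (by linarith) fun n => ?_
  rw [mem_Off] at hA
  obtain ⟨hA1, ⟨hA2, hA3⟩, -⟩ := hA
  set n' := Function.update n e fun _ => false with hn'
  set Rp := pos C lp (tr A (S g n')) with hRp
  set Rm := pos C lm (tr A (S g n')) with hRm
  have hab : ∀ a ∈ A, |a| ≤ 3 * F := by
    intro a ha
    have := hA1 ha
    rw [mem_Icc] at this
    exact abs_le.mpr this
  have hsh : ∀ (f f' : ℤ → ℕ) (x : Fin m → Bool),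
      (∀ a ∈ A, f (a + S g (Function.update n e x)) = f' (a + S g n')) →
      pos C f (tr A (S g (Function.update n e x)))
        = (pos C f' (tr A (S g n'))).image fun y => y + C * Te (g e) fun b => val (x b) := by
    intro f f' x h
    unfold pos tr
    rw [image_image, image_image, image_image]
    refine image_congr fun a ha => ?_
    simp only [Function.comp]
    rw [h a ha, S_update, hn']
    ring
  have key : ∀ x : Fin m → Bool, Dl B C lp lm (tr A (S g (Function.update n e x)))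
      = sg x • B (Rm.image fun y => y + C * Te (g e) fun b => val (x b))
        - sg x • B (Rp.image fun y => y + C * Te (g e) fun b => val (x b)) := by
    intro x
    rcases sg_eq x with hx | hx
    · rw [hx, one_smul, one_smul, Dl]
      rw [hsh lp lp x fun a ha => ((lab_update hG hL (hab a ha) (he a ha) n x).1 hx).1,
        hsh lm lm x fun a ha => ((lab_update hG hL (hab a ha) (he a ha) n x).1 hx).2]
    · rw [hx, neg_one_smul, neg_one_smul, Dl]
      rw [hsh lp lm x fun a ha => ((lab_update hG hL (hab a ha) (he a ha) n x).2 hx).1,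
        hsh lm lp x fun a ha => ((lab_update hG hL (hab a ha) (he a ha) n x).2 hx).2]
      abel
  simp only [key]
  rw [sum_sub_distrib]
  have hcard : ∀ f : ℤ → ℕ, (pos C f (tr A (S g n'))).card ≤ 3 := by
    intro f
    unfold pos
    refine card_image_le.trans ?_
    rw [card_tr]; exact hA2
  have hwin : ∀ f : ℤ → ℕ, (∀ t, f t ≤ Lb) → ∀ y ∈ pos C f (tr A (S g n')), |y| ≤ C * Q := by
    intro f hf y hy
    unfold pos at hy
    rw [mem_image] at hy
    obtain ⟨t, ht, rfl⟩ := hy
    have h1 := abs_le.mp (hab _ (mem_tr.mp ht))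
    have h2 := S_nonneg hG n'
    have h3 := S_le hG n'
    have h4 := hG.FQ
    have h5 := F_pos hG
    have h6 : (f t : ℤ) ≤ Lb := by exact_mod_cast hf t
    have h7 : (0 : ℤ) ≤ f t := by positivity
    have h8 : t ≤ Q / 2 := by
      have : 2 * t ≤ Q := by linarith [h1.2]
      omega
    have h9 : -(Q / 2) ≤ t := by
      have : -Q ≤ 2 * t := by linarith [h1.1]
      omega
    have h10 : 2 * (Q / 2) ≤ Q := by omega
    have h11 : C * t ≤ C * (Q / 2) := mul_le_mul_of_nonneg_left h8 (by linarith)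
    have h12 : C * (-(Q / 2)) ≤ C * t := mul_le_mul_of_nonneg_left h9 (by linarith)
    have h13 : C * (2 * (Q / 2)) ≤ C * Q := mul_le_mul_of_nonneg_left h10 (by linarith)
    have h14 : C * 24 ≤ C * (Q / 2) := mul_le_mul_of_nonneg_left (by omega) (by linarith)
    rw [abs_le]
    constructor <;> nlinarith
  have k1 := hK e Rm (hcard lm) (hwin lm fun t => (hL.lb t).2)
  have k2 := hK e Rp (hcard lp) (hwin lp fun t => (hL.lb t).1)
  refine (map_sub_le_add p _ _).trans ?_
  linarith

end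

/-- **(F)** -/
theorem stFine : StFine := by
  intro V _ _ p B k m d g F Q G C L1 L2 l w w' Lb lp lm κ hG hL hC hC1 h1 h2 hK
  rw [sum_fine hG hL h1 h2]
  have hκ := kappa_nonneg hG hK
  have hF := F_pos hG
  refine (psum_le p _ _).trans ?_
  calc ∑ A ∈ Off m F, p (∑ n : E k → Fin m → Bool, Dl B C lp lm (tr A (S g n)))
      ≤ ∑ _A ∈ Off m F, 2 ^ (k ^ 2 * m) * (2 * κ) :=
        sum_le_sum fun A hA => kill_off hG hL hC hC1 hK hA
    _ = ((Off m F).card : ℝ) * (2 ^ (k ^ 2 * m) * (2 * κ)) := by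
        rw [sum_const, nsmul_eq_mul]
    _ ≤ (8 * (F : ℝ)) ^ 3 * (2 ^ (k ^ 2 * m) * (2 * κ)) := by
        refine mul_le_mul_of_nonneg_right (card_Off (by linarith)) (by positivity)
    _ = 2 ^ (k ^ 2 * m + 1) * (8 * (F : ℝ)) ^ 3 * κ := by
        rw [pow_succ]; ring

/-- **(One)** -/
theorem stOne : StOne := by
  intro V _ _ p B k m d g F Q G C L1 L2 l w w' Lb lp lm κ0 hG hL hC hC1 h1 h2 hK
  classical
  have hF := F_pos hG
  have hFQ := hG.FQ
  -- the sum over the tops
  have hsum : ∑ A ∈ (Icc (-L1) L2).powerset with A.card = 1, Dl B C lp lm A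
      = ∑ n : E k → Fin m → Bool, ∑ n0 : Fin m → Bool, Dl B C lp lm {Z n0 + S g n} := by
    have hsub : ∑ A ∈ (Icc (-L1) L2).powerset with A.card = 1 ∧ ∃ t ∈ A, Top g t,
        Dl B C lp lm A = ∑ A ∈ (Icc (-L1) L2).powerset with A.card = 1, Dl B C lp lm A := by
      refine sum_subset (fun A hA => ?_) fun A hA hA' => ?_
      · rw [mem_filter] at hA ⊢
        exact ⟨hA.1, hA.2.1⟩
      · rw [mem_filter] at hA hA'
        refine Dl_notTop hL fun t ht hT => hA' ⟨hA.1, hA.2, t, ht, hT⟩
    rw [← hsub, ← sum_product']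
    symm
    refine sum_bij (fun x _ => {Z x.2 + S g x.1}) ?_ ?_ ?_ ?_
    · rintro ⟨n, n0⟩ _
      rw [mem_filter, mem_powerset]
      refine ⟨?_, card_singleton _, _, mem_singleton_self _, n0, n, rfl⟩
      rw [singleton_subset_iff, mem_Icc]
      have a1 := S_nonneg hG n
      have a2 := S_le hG n
      have a3 := Z_nonneg n0
      have a4 := Z_le_F hG n0
      simp only
      constructor <;> linarith
    · rintro ⟨n, n0⟩ _ ⟨n', n0'⟩ _ h
      simp only [singleton_inj] at h
      have h3 : n = n' := top_close hG (n0 := n0) (n0' := n0') (by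
        rw [h, sub_self, abs_zero]; linarith)
      subst h3
      have h4 : n0 = n0' := Z_inj hG (by linarith)
      rw [h4]
    · intro A hA
      rw [mem_filter] at hA
      obtain ⟨-, hc, t, ht, n0, n, rfl⟩ := hA
      refine ⟨(n, n0), by simp, ?_⟩
      obtain ⟨a, rfl⟩ := card_eq_one.mp hc
      rw [mem_singleton] at ht
      rw [ht]
    · rintro ⟨n, n0⟩ _
      rfl
  have hDl : ∀ (n0 : Fin m → Bool) (n : E k → Fin m → Bool), Dl B C lp lm {Z n0 + S g n} = (sg n0 * sgE n) •
      (B {(C * S g n + w') + C * Z n0} - B {(C * S g n + w) + C * Z n0}) := by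
    intro n0 n
    have e1 : C * (Z n0 + S g n) + (w : ℤ) = (C * S g n + w) + C * Z n0 := by ring
    have e2 : C * (Z n0 + S g n) + (w' : ℤ) = (C * S g n + w') + C * Z n0 := by ring
    have hs : sg n0 * sgE n = 1 ∨ sg n0 * sgE n = -1 := by
      rcases sg_eq n0 with h | h <;> rcases sgE_eq n with h' | h' <;> rw [h, h'] <;> norm_num
    unfold Dl pos
    rw [image_singleton, image_singleton]
    rcases hs with h | h
    · obtain ⟨a1, a2⟩ := hL.top1 _ _ h
      rw [h, a1, a2, one_smul, e1, e2]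
    · obtain ⟨a1, a2⟩ := hL.top2 _ _ h
      rw [h, a1, a2, neg_one_smul, e1, e2]
      abel
  have hQ : 48 ≤ Q := by linarith
  have hx : ∀ (n : E k → Fin m → Bool) (x : ℕ), x ≤ Lb → 4 * |C * S g n + x| ≤ C * Q := by
    intro n x hx
    have a1 := S_nonneg hG n
    have a2 := S_le hG n
    have a3 : (x : ℤ) ≤ Lb := by exact_mod_cast hx
    have a4 : (0 : ℤ) ≤ x := by positivity
    rw [abs_of_nonneg (by positivity)]
    have a5 : C * (16 * S g n) ≤ C * Q := mul_le_mul_of_nonneg_left a2 (by linarith)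
    have a6 : C * 48 ≤ C * Q := mul_le_mul_of_nonneg_left hQ (by linarith)
    nlinarith
  have hκ0 : 0 ≤ κ0 := (apply_nonneg p _).trans (hK 0 (by simp; nlinarith))
  have hw : w ≤ Lb ∧ w' ≤ Lb := by
    have hs : sg (fun _ : Fin m => false) * sgE (fun (_ : E k) (_ : Fin m) => false) = 1 := by
      simp [sgE, sg_false]
    obtain ⟨a1, a2⟩ := hL.top1 _ _ hs
    have b := hL.lb (Z (fun _ : Fin m => false) + S g fun _ _ => false)
    rw [a1, a2] at b
    exact b
  rw [hsum]
  refine (psum_le p _ _).trans ?_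
  calc ∑ n : E k → Fin m → Bool, p (∑ n0 : Fin m → Bool, Dl B C lp lm {Z n0 + S g n})
      ≤ ∑ _n : E k → Fin m → Bool, 2 * κ0 := by
        refine sum_le_sum fun n _ => ?_
        have e : ∑ n0 : Fin m → Bool, Dl B C lp lm {Z n0 + S g n}
            = sgE n • (∑ n0 : Fin m → Bool, sg n0 • B {(C * S g n + w') + C * Z n0}
              - ∑ n0 : Fin m → Bool, sg n0 • B {(C * S g n + w) + C * Z n0}) := by
          rw [← sum_sub_distrib, smul_sum]
          refine sum_congr rfl fun n0 _ => ?_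
          rw [hDl, ← smul_sub, smul_smul, mul_comm]
        rw [e, map_smul_eq_mul, Real.norm_eq_abs]
        have h3 : |sgE n| = 1 := by rcases sgE_eq n with h | h <;> rw [h] <;> norm_num
        rw [h3, one_mul]
        refine (map_sub_le_add p _ _).trans ?_
        have k1 := hK _ (hx n w hw.1)
        have k2 := hK _ (hx n w' hw.2)
        linarith
    _ = (Fintype.card (E k → Fin m → Bool) : ℝ) * (2 * κ0) := by
        rw [sum_const, card_univ, nsmul_eq_mul]
    _ ≤ 2 ^ (k ^ 2 * m) * (2 * κ0) := by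
        refine mul_le_mul_of_nonneg_right ?_ (by linarith)
        have : Fintype.card (E k → Fin m → Bool) ≤ 2 ^ (k ^ 2 * m) := by
          rw [Fintype.card_fun, Fintype.card_fun, Fintype.card_bool, Fintype.card_fin, ← pow_mul,
            mul_comm]
          exact Nat.pow_le_pow_right (by norm_num) (Nat.mul_le_mul_right _ (card_E k))
        exact_mod_cast this
    _ = 2 ^ (k ^ 2 * m + 1) * κ0 := by rw [pow_succ]; ring

end Vale.Agent.P321.H576
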