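import Vale.Agent.P321.H576.TSpec
import Vale.Agent.P321.H776.Seg
import Vale.Agent.P321.H117.NShift

/-! # LB2, T-step: the kill hypotheses for words (helper576)

`B S = AL * seg (fun i => if (i - o) ∈ S then v else Y) 0 n * AR`. -/

namespace Vale.Agent.P321.H576

open Finset
open H776 (seg seg_add seg_congr seg_const norm_seg_le)
open H117 (sl sl_nonneg shift_bound shift_bound' label_bound choose_moments)

variable {A : Type} [NormedRing A] [NormedAlgebra ℝ A] [NormOneClass A]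

/-- the word of letters with `v` at the positions in `S` (origin `o`) -/
def wb (Y v : A) (o : ℤ) (S : Finset ℤ) (i : ℕ) : A := if ((i : ℤ) - o) ∈ S then v else Y

omit [NormedAlgebra ℝ A] [NormOneClass A] in
theorem seg_shift (g g' : ℕ → A) (a a' k : ℕ) (h : ∀ t < k, g (a + t) = g' (a' + t)) :
    seg g a k = seg g' a' k := by
  induction k with
  | zero => rfl
  | succ k ih =>
    rw [H776.seg_succ, H776.seg_succ, ih fun t ht => h t (by omega), h k (by omega)]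

omit [NormedAlgebra ℝ A] [NormOneClass A] in
theorem seg_wb_const {Y v : A} {o : ℤ} {S : Finset ℤ} {a k : ℕ}
    (h : ∀ t < k, ((a + t : ℕ) : ℤ) - o ∉ S) : seg (wb Y v o S) a k = Y ^ k := by
  rw [← seg_const Y a k]
  refine seg_shift _ _ _ _ _ fun t ht => ?_
  unfold wb
  rw [if_neg (h t ht)]

omit [NormedAlgebra ℝ A] in
/-- norm of a word with at most `c` letters `v` -/
theorem norm_seg_wb {Y v : A} (hY : ‖Y‖ ≤ 1) (hv : ‖v‖ ≤ 2) (o : ℤ) (S : Finset ℤ) (a k : ℕ) :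
    ‖seg (wb Y v o S) a k‖ ≤ 2 ^ S.card := by
  have key : ∀ k, ‖seg (wb Y v o S) a k‖
      ≤ 2 ^ (S.filter fun x => x < ((a + k : ℕ) : ℤ) - o).card := by
    intro k
    induction k with
    | zero =>
      have : seg (wb Y v o S) a 0 = 1 := rfl
      rw [this, norm_one]
      exact one_le_pow₀ (by norm_num)
    | succ k ih =>
      rw [H776.seg_succ]
      refine (norm_mul_le _ _).trans ?_
      unfold wb
      by_cases h : (((a + k : ℕ) : ℤ) - o) ∈ S
      · rw [if_pos h]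
        have h2 : (S.filter fun x => x < ((a + (k + 1) : ℕ) : ℤ) - o)
            = insert (((a + k : ℕ) : ℤ) - o) (S.filter fun x => x < ((a + k : ℕ) : ℤ) - o) := by
          ext x
          simp only [mem_filter, mem_insert]
          constructor
          · rintro ⟨h1, h2⟩
            by_cases h3 : x = ((a + k : ℕ) : ℤ) - o
            · exact Or.inl h3
            · right; refine ⟨h1, ?_⟩; push_cast at h2 h3 ⊢; omega
          · rintro (rfl | ⟨h1, h2⟩)
            · refine ⟨h, ?_⟩; push_cast; omega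
            · refine ⟨h1, ?_⟩; push_cast at h2 ⊢; omega
        rw [h2, card_insert_of_notMem (by simp), pow_succ]
        exact mul_le_mul ih hv (norm_nonneg _) (by positivity)
      · rw [if_neg h]
        calc _ ≤ 2 ^ (S.filter fun x => x < ((a + k : ℕ) : ℤ) - o).card * 1 :=
              mul_le_mul ih hY (norm_nonneg _) (by positivity)
          _ ≤ _ := by
            rw [mul_one]
            refine pow_le_pow_right₀ (by norm_num) (card_le_card fun x hx => ?_)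
            rw [mem_filter] at hx ⊢
            refine ⟨hx.1, ?_⟩
            have := hx.2
            push_cast at this ⊢
            omega
  refine (key k).trans (pow_le_pow_right₀ (by norm_num) (card_le_card (filter_subset _ _)))

omit [NormedAlgebra ℝ A] [NormOneClass A] in
/-- translation of a whole pattern -/
theorem seg_tr {Y v : A} {o p : ℤ} {S : Finset ℤ} {r n : ℕ}
    (hS : ∀ x ∈ S, p ≤ x ∧ x < p + r) {x : ℤ} (h0 : 0 ≤ o + p + x) (h1 : o + p + x + r ≤ n) :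
    seg (wb Y v o (S.image fun y => y + x)) 0 n
      = Y ^ (o + p + x).toNat * seg (wb Y v (-p) S) 0 r * Y ^ ((n : ℤ) - (o + p + x) - r).toNat := by
  obtain ⟨a, ha⟩ := Int.eq_ofNat_of_zero_le h0
  obtain ⟨b, hb⟩ := Int.eq_ofNat_of_zero_le (show 0 ≤ (n : ℤ) - (o + p + x) - r by linarith)
  have hn : n = a + r + b := by omega
  rw [hb, ha, Int.toNat_natCast, Int.toNat_natCast, hn, seg_add, seg_add]
  congr 1
  · congr 1
    · refine seg_wb_const fun t ht hmem => ?_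
      rw [mem_image] at hmem
      obtain ⟨y, hy, he⟩ := hmem
      have := hS y hy
      push_cast at he
      omega
    · refine seg_shift _ _ _ _ _ fun t ht => ?_
      unfold wb
      have : (((0 + a + t : ℕ) : ℤ) - o ∈ S.image fun y => y + x) ↔ ((0 + t : ℕ) : ℤ) - -p ∈ S := by
        rw [mem_image]
        constructor
        · rintro ⟨y, hy, he⟩
          have : y = ((0 + t : ℕ) : ℤ) - -p := by push_cast at he ⊢; omega
          rwa [← this]
        · intro h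
          refine ⟨_, h, ?_⟩
          push_cast
          omega
      simp only [this]
  · refine seg_wb_const fun t ht hmem => ?_
    rw [mem_image] at hmem
    obtain ⟨y, hy, he⟩ := hmem
    have := hS y hy
    push_cast at he
    omega

omit [NormedAlgebra ℝ A] [NormOneClass A] in
/-- one moving letter -/
theorem seg_mv {Y v : A} {o : ℤ} {S : Finset ℤ} {i0 i1 n : ℕ} (h1 : i1 ≤ n)
    (hS : ∀ i : ℕ, i0 ≤ i → i < i1 → (i : ℤ) - o ∉ S) {q : ℕ} (hq0 : i0 ≤ q) (hq1 : q < i1) :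
    seg (wb Y v o (insert ((q : ℤ) - o) S)) 0 n
      = seg (wb Y v o S) 0 i0 * (Y ^ (q - i0) * v * Y ^ (i1 - 1 - q))
        * seg (wb Y v o S) i1 (n - i1) := by
  have hn : n = i0 + ((q - i0) + 1 + (i1 - 1 - q)) + (n - i1) := by omega
  have e1 : seg (wb Y v o (insert ((q : ℤ) - o) S)) 0 n
      = seg (wb Y v o (insert ((q : ℤ) - o) S)) 0 (i0 + ((q - i0) + 1 + (i1 - 1 - q)) + (n - i1)) := by
    rw [← hn]
  rw [e1, seg_add, seg_add, seg_add, seg_add]
  have c1 : seg (wb Y v o (insert ((q : ℤ) - o) S)) 0 i0 = seg (wb Y v o S) 0 i0 := by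
    refine seg_shift _ _ _ _ _ fun t ht => ?_
    unfold wb
    have : (((0 + t : ℕ) : ℤ) - o ∈ insert ((q : ℤ) - o) S) ↔ ((0 + t : ℕ) : ℤ) - o ∈ S := by
      rw [mem_insert]
      constructor
      · rintro (h | h)
        · exfalso; push_cast at h; omega
        · exact h
      · exact Or.inr
    simp only [this]
  have c2 : seg (wb Y v o (insert ((q : ℤ) - o) S)) (0 + i0) (q - i0) = Y ^ (q - i0) := by
    refine seg_wb_const fun t ht hm => ?_
    rw [mem_insert] at hm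
    rcases hm with h | h
    · push_cast at h; omega
    · exact hS (0 + i0 + t) (by omega) (by omega) h
  have c3 : seg (wb Y v o (insert ((q : ℤ) - o) S)) (0 + i0 + (q - i0)) 1 = v := by
    rw [H776.seg_succ]
    have : seg (wb Y v o (insert ((q : ℤ) - o) S)) (0 + i0 + (q - i0)) 0 = 1 := rfl
    rw [this, one_mul]
    unfold wb
    rw [if_pos]
    rw [mem_insert]
    left
    push_cast
    omega
  have c4 : seg (wb Y v o (insert ((q : ℤ) - o) S)) (0 + i0 + ((q - i0) + 1)) (i1 - 1 - q)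
      = Y ^ (i1 - 1 - q) := by
    refine seg_wb_const fun t ht hm => ?_
    rw [mem_insert] at hm
    rcases hm with h | h
    · push_cast at h; omega
    · exact hS (0 + i0 + ((q - i0) + 1) + t) (by omega) (by omega) h
  have c5 : seg (wb Y v o (insert ((q : ℤ) - o) S)) (0 + (i0 + ((q - i0) + 1 + (i1 - 1 - q))))
      (n - i1) = seg (wb Y v o S) i1 (n - i1) := by
    refine seg_shift _ _ _ _ _ fun t ht => ?_
    have e : 0 + (i0 + ((q - i0) + 1 + (i1 - 1 - q))) + t = i1 + t := by omega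
    rw [e]
    unfold wb
    have : (((i1 + t : ℕ) : ℤ) - o ∈ insert ((q : ℤ) - o) S) ↔ ((i1 + t : ℕ) : ℤ) - o ∈ S := by
      rw [mem_insert]
      constructor
      · rintro (h | h)
        · exfalso; push_cast at h; omega
        · exact h
      · exact Or.inr
    simp only [this]
  rw [c1, c2, c3, c4, c5]

/-- the alternating sum in Boolean digits -/
theorem shift_bool {Y : A} (hY : ‖Y‖ ≤ 1) {m : ℕ} (γ : Fin m → ℕ) {Γ : ℝ}
    (hΓ : ∀ b, (γ b : ℝ) ≤ Γ) (X : A) {M a c : ℕ} (ha : m * M ≤ a) (hc : m * M + ∑ b, γ b ≤ c) :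
    ‖∑ n : Fin m → Bool, sg n • (Y ^ (a + ∑ b, if n b then γ b else 0) * X *
      Y ^ (c - ∑ b, if n b then γ b else 0))‖ ≤ ‖X‖ * (2 * Γ * sl Y M) ^ m := by
  classical
  have h := shift_bound' hY (M := M) (univ : Finset (Fin m)) γ (fun b _ => hΓ b) X a (c - ∑ b, γ b)
    (by rw [card_univ, Fintype.card_fin]; exact ha)
    (by rw [card_univ, Fintype.card_fin]; omega)
  rw [card_univ, Fintype.card_fin] at h
  have e : ∑ n : Fin m → Bool, sg n • (Y ^ (a + ∑ b, if n b then γ b else 0) * X *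
      Y ^ (c - ∑ b, if n b then γ b else 0))
      = ∑ T ∈ (univ : Finset (Fin m)).powerset, (-1 : ℝ) ^ T.card •
      (Y ^ (a + ∑ b ∈ T, γ b) * X * Y ^ (c - ∑ b, γ b + ∑ b ∈ univ \ T, γ b)) := by
    rw [powerset_univ]
    refine sum_bij' (fun n _ => univ.filter fun b => n b = true) (fun T _ => fun b => decide (b ∈ T))
      ?_ ?_ ?_ ?_ ?_
    · intro n _; simp
    · intro T _; simp
    · intro n _; funext b; simp
    · intro T _; ext b; simp
    · intro n _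
      have e1 : ∑ b, (if n b then γ b else 0) = ∑ b ∈ univ.filter (fun b => n b = true), γ b := by
        rw [sum_filter]
      have e2 : sg n = (-1 : ℝ) ^ (univ.filter fun b => n b = true).card := by
        unfold sg
        rw [prod_ite]
        simp
      have e3 : ∑ b ∈ univ \ (univ.filter fun b => n b = true), γ b
          + ∑ b ∈ univ.filter (fun b => n b = true), γ b = ∑ b, γ b :=
        sum_sdiff (subset_univ _)
      rw [e1, e2]
      congr 3
      omega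
  rw [e]
  exact h

/-- digits and shifts -/
theorem sum_digits {m : ℕ} (γ : Fin m → ℤ) (γ' : Fin m → ℕ) (h : ∀ b, (γ' b : ℤ) = γ b)
    (n : Fin m → Bool) : ∑ b, val (n b) * γ b = ((∑ b, if n b then γ' b else 0 : ℕ) : ℤ) := by
  push_cast
  refine sum_congr rfl fun b _ => ?_
  cases hn : n b <;> simp [val, h]

variable {Y v AL AR : A} {o C Q : ℤ} {n m k : ℕ} {B : Finset ℤ → A}

omit [NormOneClass A] in
theorem norm_ctx {ι : Type*} [Fintype ι] (hAL : ‖AL‖ ≤ 1) (hAR : ‖AR‖ ≤ 1) (c : ι → ℝ)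
    (X : ι → A) : ‖∑ i, c i • (AL * X i * AR)‖ ≤ ‖∑ i, c i • X i‖ := by
  have : ∑ i, c i • (AL * X i * AR) = AL * (∑ i, c i • X i) * AR := by
    rw [Finset.mul_sum, Finset.sum_mul]
    refine sum_congr rfl fun i _ => ?_
    rw [mul_smul_comm, smul_mul_assoc]
  rw [this]
  calc ‖AL * (∑ i, c i • X i) * AR‖ ≤ ‖AL‖ * ‖∑ i, c i • X i‖ * ‖AR‖ :=
        (norm_mul_le _ _).trans (mul_le_mul_of_nonneg_right (norm_mul_le _ _) (norm_nonneg _))
    _ ≤ 1 * ‖∑ i, c i • X i‖ * 1 := by gcongr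
    _ = _ := by ring

/-- **KillE** -/
theorem killE (hB : ∀ S, B S = AL * seg (wb Y v o S) 0 n * AR) (hAL : ‖AL‖ ≤ 1) (hAR : ‖AR‖ ≤ 1)
    (hY : ‖Y‖ ≤ 1) (hv : ‖v‖ ≤ 2) {g : E k → Fin m → ℤ} {G : ℤ} (g0 : ∀ e b, 0 ≤ g e b)
    (gG : ∀ e b, g e b ≤ G) (hC : 0 ≤ C) {M : ℕ} (h1 : (m : ℤ) * M + C * Q ≤ o)
    (h2 : (m : ℤ) * M + m * (C * G) + C * Q + o + 1 ≤ n) :
    KillE (normSeminorm ℝ A) B g C Q (8 * (2 * (C * G) * sl Y M) ^ m) := by
  intro e R hR hw
  rw [coe_normSeminorm]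
  simp only [hB]
  refine (norm_ctx hAL hAR _ _).trans ?_
  by_cases hR0 : R = ∅
  · subst hR0
    simp only [image_empty]
    rcases Nat.eq_zero_or_pos m with hm | hm
    · subst hm
      have e1 : ∑ x : Fin 0 → Bool, sg x • seg (wb Y v o ∅) 0 n = seg (wb Y v o ∅) 0 n := by
        simp [sg]
      rw [e1, pow_zero]
      have := norm_seg_wb hY hv o ∅ 0 n
      rw [card_empty, pow_zero] at this
      linarith
    · rw [← Finset.sum_smul]
      have : ∑ x : Fin m → Bool, sg x = 0 := by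
        unfold sg
        rw [← Fintype.prod_sum (fun (_ : Fin m) (b : Bool) => if b = true then (-1 : ℝ) else 1)]
        refine prod_eq_zero (mem_univ ⟨0, hm⟩) ?_
        simp
      rw [this, zero_smul, norm_zero]
      have hG : 0 ≤ G := (g0 e ⟨0, hm⟩).trans (gG e ⟨0, hm⟩)
      have := sl_nonneg Y M
      have : (0 : ℝ) ≤ C := by exact_mod_cast hC
      have : (0 : ℝ) ≤ G := by exact_mod_cast hG
      positivity
  obtain ⟨x0, hx0⟩ := nonempty_iff_ne_empty.mpr hR0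
  have hCQ : 0 ≤ C * Q := (abs_nonneg _).trans (hw x0 hx0)
  set W : ℤ := C * Q with hW
  obtain ⟨W', hW'⟩ := Int.eq_ofNat_of_zero_le hCQ
  -- the shifts
  let γ : Fin m → ℕ := fun b => (C * g e b).toNat
  have hγ : ∀ b, (γ b : ℤ) = C * g e b := fun b =>
    Int.toNat_of_nonneg (mul_nonneg hC (g0 e b))
  have hγ' : ∀ b, (γ b : ℝ) ≤ C * G := by
    intro b
    have h3 : (γ b : ℤ) ≤ C * G := by
      rw [hγ]; exact mul_le_mul_of_nonneg_left (gG e b) hC
    exact_mod_cast h3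
  have hsum : ((∑ b, γ b : ℕ) : ℤ) ≤ m * (C * G) := by
    push_cast
    calc ∑ b, (γ b : ℤ) ≤ ∑ _b : Fin m, C * G := sum_le_sum fun b _ => by
          rw [hγ]; exact mul_le_mul_of_nonneg_left (gG e b) hC
      _ = m * (C * G) := by simp
  have hx : ∀ x : Fin m → Bool, C * Te (g e) (fun b => val (x b))
      = ((∑ b, if x b then γ b else 0 : ℕ) : ℤ) := by
    intro x
    rw [← sum_digits (fun b => C * g e b) γ hγ x, Te, mul_sum]
    refine sum_congr rfl fun b _ => ?_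
    ring
  have hle : ∀ x : Fin m → Bool, (∑ b, if x b then γ b else 0) ≤ ∑ b, γ b := by
    intro x
    refine sum_le_sum fun b _ => ?_
    split_ifs <;> omega
  have hS : ∀ y ∈ R, -W ≤ y ∧ y < -W + ((2 * W' + 1 : ℕ) : ℤ) := by
    intro y hy
    have := abs_le.mp (hw y hy)
    push_cast
    constructor <;> omega
  have hMW : (0 : ℤ) ≤ (m : ℤ) * M := by positivity
  obtain ⟨a, ha⟩ := Int.eq_ofNat_of_zero_le (show 0 ≤ o - W by linarith)
  have hG0 : 0 ≤ (m : ℤ) * (C * G) := (Int.natCast_nonneg _).trans hsum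
  obtain ⟨c, hc⟩ := Int.eq_ofNat_of_zero_le
    (show 0 ≤ (n : ℤ) - (o - W) - ((2 * W' + 1 : ℕ) : ℤ) by push_cast; linarith)
  have key : ∀ x : Fin m → Bool,
      seg (wb Y v o (R.image fun y => y + C * Te (g e) fun b => val (x b))) 0 n
      = Y ^ (a + ∑ b, if x b then γ b else 0) * seg (wb Y v W R) 0 (2 * W' + 1)
        * Y ^ (c - ∑ b, if x b then γ b else 0) := by
    intro x
    rw [hx x]
    have hx2 : ((∑ b, if x b then γ b else 0 : ℕ) : ℤ) ≤ (∑ b, γ b : ℕ) := by exact_mod_cast hle x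
    have h3 : (0 : ℤ) ≤ ((∑ b, if x b then γ b else 0 : ℕ) : ℤ) := Int.natCast_nonneg _
    rw [seg_tr hS (x := ((∑ b, if x b then γ b else 0 : ℕ) : ℤ)) (by linarith) (by
      push_cast at hc hsum hx2 ⊢; linarith)]
    rw [neg_neg]
    congr 2
    · congr 1
      have : o + -W + ((∑ b, if x b then γ b else 0 : ℕ) : ℤ)
        = ((a + ∑ b, if x b then γ b else 0 : ℕ) : ℤ) := by
        rw [Nat.cast_add]; linarith
      rw [this, Int.toNat_natCast]
    · have h5 : (∑ b, if x b then γ b else 0) ≤ c := by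
        have : ((∑ b, if x b then γ b else 0 : ℕ) : ℤ) ≤ (c : ℤ) := by
          push_cast at hc hsum hx2 ⊢; linarith
        exact_mod_cast this
      have : (n : ℤ) - (o + -W + ((∑ b, if x b then γ b else 0 : ℕ) : ℤ))
          - ((2 * W' + 1 : ℕ) : ℤ) = ((c - ∑ b, if x b then γ b else 0 : ℕ) : ℤ) := by
        rw [Nat.cast_sub h5]; linarith
      rw [this, Int.toNat_natCast]
  simp only [key]
  refine (shift_bool hY γ (Γ := C * G) hγ' _ (M := M) ?_ ?_).trans ?_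
  · have : ((m * M : ℕ) : ℤ) ≤ a := by push_cast; linarith
    exact_mod_cast this
  · have : ((m * M + ∑ b, γ b : ℕ) : ℤ) ≤ c := by
      rw [Nat.cast_add]
      push_cast at hc hsum ⊢
      linarith
    exact_mod_cast this
  · have h3 := norm_seg_wb hY hv W R 0 (2 * W' + 1)
    have h4 : (2 : ℝ) ^ R.card ≤ 8 := by
      calc (2 : ℝ) ^ R.card ≤ 2 ^ 3 := pow_le_pow_right₀ (by norm_num) hR
        _ = 8 := by norm_num
    rcases Nat.eq_zero_or_pos m with hm | hm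
    · subst hm
      rw [pow_zero]; linarith
    have hG : 0 ≤ G := (g0 e ⟨0, hm⟩).trans (gG e ⟨0, hm⟩)
    have := sl_nonneg Y M
    have : (0 : ℝ) ≤ C := by exact_mod_cast hC
    have : (0 : ℝ) ≤ G := by exact_mod_cast hG
    exact mul_le_mul_of_nonneg_right (h3.trans h4) (by positivity)

omit [NormedAlgebra ℝ A] [NormOneClass A] in
theorem norm_LR {L R X : A} {a b : ℝ} (hL : ‖L‖ ≤ a) (hR : ‖R‖ ≤ b) (ha : 0 ≤ a) (_ : 0 ≤ b) :
    ‖L * X * R‖ ≤ a * b * ‖X‖ := by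
  calc ‖L * X * R‖ ≤ ‖L‖ * ‖X‖ * ‖R‖ :=
        (norm_mul_le _ _).trans (mul_le_mul_of_nonneg_right (norm_mul_le _ _) (norm_nonneg _))
    _ ≤ a * ‖X‖ * b := by gcongr
    _ = _ := by ring

/-- one letter moving in direction 0 -/
theorem mv0 (hB : ∀ S, B S = AL * seg (wb Y v o S) 0 n * AR) (hAL : ‖AL‖ ≤ 1) (hAR : ‖AR‖ ≤ 1)
    (hY : ‖Y‖ ≤ 1) (hv : ‖v‖ ≤ 2) {C : ℕ} {S0 : Finset ℤ} (hS0 : S0.card ≤ 1) {i0 i1 q0 M : ℕ}
    (hi1 : i1 ≤ n) (hfree : ∀ i : ℕ, i0 ≤ i → i < i1 → (i : ℤ) - o ∉ S0)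
    (hq0 : i0 + m * M ≤ q0) (hq1 : q0 + m * M + C * 3 ^ m + 1 ≤ i1) :
    ‖∑ x : Fin m → Bool, sg x • B (insert ((q0 : ℤ) - o + C * Z x) S0)‖
      ≤ 8 * (2 * (C * 3 ^ m) * sl Y M) ^ m := by
  simp only [hB]
  refine (norm_ctx hAL hAR _ _).trans ?_
  let γ : Fin m → ℕ := fun b => C * 3 ^ (b : ℕ)
  have hγ : ∀ b, (γ b : ℤ) = (C : ℤ) * 3 ^ (b : ℕ) := fun b => by simp [γ]
  have hγ' : ∀ b, (γ b : ℝ) ≤ C * 3 ^ m := by
    intro b
    have : γ b ≤ C * 3 ^ m := Nat.mul_le_mul_left _ (Nat.pow_le_pow_right (by norm_num) b.2.le)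
    exact_mod_cast this
  have hx : ∀ x : Fin m → Bool, (C : ℤ) * Z x = ((∑ b, if x b then γ b else 0 : ℕ) : ℤ) := by
    intro x
    rw [← sum_digits (fun b : Fin m => (C : ℤ) * 3 ^ (b : ℕ)) γ hγ x, Z, T0, mul_sum]
    refine sum_congr rfl fun b _ => ?_
    ring
  have hall : ∑ b, γ b ≤ C * 3 ^ m := by
    have h1 : ∑ b, γ b = C * ∑ b : Fin m, 3 ^ (b : ℕ) := by rw [mul_sum]
    rw [h1]
    refine Nat.mul_le_mul_left _ ?_
    rw [Fin.sum_univ_eq_sum_range (fun b => 3 ^ b) m]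
    have := Nat.geomSum_lt (m := 3) (n := m) (s := range m) (by norm_num) (by simp)
    exact this.le
  have hle : ∀ x : Fin m → Bool, (∑ b, if x b then γ b else 0) ≤ ∑ b, γ b := by
    intro x
    refine sum_le_sum fun b _ => ?_
    split_ifs <;> omega
  have key : ∀ x : Fin m → Bool,
      seg (wb Y v o (insert ((q0 : ℤ) - o + C * Z x) S0)) 0 n
      = seg (wb Y v o S0) 0 i0 * (Y ^ ((q0 - i0) + ∑ b, if x b then γ b else 0) * v
        * Y ^ ((i1 - 1 - q0) - ∑ b, if x b then γ b else 0)) * seg (wb Y v o S0) i1 (n - i1) := by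
    intro x
    have e1 : (q0 : ℤ) - o + C * Z x = ((q0 + ∑ b, if x b then γ b else 0 : ℕ) : ℤ) - o := by
      rw [hx, Nat.cast_add]; ring
    have := hle x
    rw [e1, seg_mv hi1 hfree (q := q0 + ∑ b, if x b then γ b else 0) (by omega) (by omega)]
    congr 4
    · congr 1; omega
    · omega
  simp only [key]
  have e2 : ∑ x : Fin m → Bool, sg x • (seg (wb Y v o S0) 0 i0 *
        (Y ^ ((q0 - i0) + ∑ b, if x b then γ b else 0) * v
        * Y ^ ((i1 - 1 - q0) - ∑ b, if x b then γ b else 0)) * seg (wb Y v o S0) i1 (n - i1))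
      = seg (wb Y v o S0) 0 i0 * (∑ x : Fin m → Bool, sg x •
        (Y ^ ((q0 - i0) + ∑ b, if x b then γ b else 0) * v
        * Y ^ ((i1 - 1 - q0) - ∑ b, if x b then γ b else 0))) * seg (wb Y v o S0) i1 (n - i1) := by
    rw [mul_sum, sum_mul]
    refine sum_congr rfl fun x _ => ?_
    rw [mul_smul_comm, smul_mul_assoc]
  rw [e2]
  have hc : (2 : ℝ) ^ S0.card ≤ 2 := by
    calc (2 : ℝ) ^ S0.card ≤ 2 ^ 1 := pow_le_pow_right₀ (by norm_num) hS0
      _ = 2 := by norm_num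
  refine (norm_LR ((norm_seg_wb hY hv o S0 0 i0).trans hc)
    ((norm_seg_wb hY hv o S0 i1 (n - i1)).trans hc) (by norm_num) (by norm_num)).trans ?_
  have h := shift_bool hY γ (Γ := C * 3 ^ m) hγ' v (M := M) (a := q0 - i0) (c := i1 - 1 - q0)
    (by omega) (by omega)
  have hs := sl_nonneg Y M
  have h2 : ‖v‖ * (2 * (C * 3 ^ m) * sl Y M) ^ m ≤ 2 * (2 * (C * 3 ^ m) * sl Y M) ^ m :=
    mul_le_mul_of_nonneg_right hv (by positivity)
  linarith

/-- one letter with vanishing moments of the label -/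
theorem mvP (hB : ∀ S, B S = AL * seg (wb Y v o S) 0 n * AR) (hAL : ‖AL‖ ≤ 1) (hAR : ‖AR‖ ≤ 1)
    (hY : ‖Y‖ ≤ 1) (hv : ‖v‖ ≤ 2) {S0 : Finset ℤ} (hS0 : S0.card ≤ 1) {i0 i1 q0 M Λ : ℕ}
    (hi1 : i1 ≤ n) (hfree : ∀ i : ℕ, i0 ≤ i → i < i1 → (i : ℤ) - o ∉ S0)
    (hq0 : i0 + m * M ≤ q0) (hq1 : q0 + m * M + Λ + 1 ≤ i1)
    {ι : Type} (J : Finset ι) (c : ι → ℝ) (j : ι → ℕ) (hj : ∀ x ∈ J, j x ≤ Λ)
    (hc : ∀ i < m, ∑ x ∈ J, c x * (j x : ℝ) ^ i = 0) :
    ‖∑ x ∈ J, c x • B (insert ((q0 : ℤ) - o + j x) S0)‖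
      ≤ (∑ x ∈ J, |c x|) * (8 * (2 * Λ * sl Y M) ^ m) := by
  classical
  -- group by labels
  let cc : ℕ → ℝ := fun l => ∑ x ∈ J with j x = l, c x
  have hmap : ∀ x ∈ J, j x ∈ range (Λ + 1) := fun x hx => by
    rw [mem_range]; have := hj x hx; omega
  have group : ∀ f : ℕ → A, ∑ x ∈ J, c x • f (j x) = ∑ l ∈ range (Λ + 1), cc l • f l := by
    intro f
    rw [← sum_fiberwise_of_maps_to hmap]
    refine sum_congr rfl fun l _ => ?_
    rw [sum_smul]
    refine sum_congr rfl fun x hx => ?_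
    rw [(mem_filter.mp hx).2]
  have groupR : ∀ f : ℕ → ℝ, ∑ x ∈ J, c x * f (j x) = ∑ l ∈ range (Λ + 1), cc l * f l := by
    intro f
    rw [← sum_fiberwise_of_maps_to hmap]
    refine sum_congr rfl fun l _ => ?_
    rw [sum_mul]
    refine sum_congr rfl fun x hx => ?_
    rw [(mem_filter.mp hx).2]
  have habs : ∑ l ∈ range (Λ + 1), |cc l| ≤ ∑ x ∈ J, |c x| := by
    rw [← sum_fiberwise_of_maps_to hmap]
    exact sum_le_sum fun l _ => abs_sum_le_sum_abs _ _
  have hmom := choose_moments (m := m) (Λ := Λ) (c := cc) (fun i hi => by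
    rw [← groupR fun l => (l : ℝ) ^ i]; exact hc i hi)
  have key : ∀ l ≤ Λ, B (insert ((q0 : ℤ) - o + l) S0)
      = (AL * (seg (wb Y v o S0) 0 i0)) * (Y ^ (q0 - i0) * (Y ^ l * v * Y ^ (Λ - l))
        * Y ^ (i1 - 1 - q0 - Λ)) * (seg (wb Y v o S0) i1 (n - i1) * AR) := by
    intro l hl
    have e1 : (q0 : ℤ) - o + l = ((q0 + l : ℕ) : ℤ) - o := by push_cast; ring
    rw [hB, e1, seg_mv hi1 hfree (q := q0 + l) (by omega) (by omega)]
    have p1 : q0 + l - i0 = (q0 - i0) + l := by omega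
    have p2 : i1 - 1 - (q0 + l) = (Λ - l) + (i1 - 1 - q0 - Λ) := by omega
    rw [p1, p2, pow_add, pow_add]
    noncomm_ring
  have e2 : ∑ x ∈ J, c x • B (insert ((q0 : ℤ) - o + j x) S0)
      = (AL * (seg (wb Y v o S0) 0 i0)) * (Y ^ (q0 - i0) *
        (∑ l ∈ range (Λ + 1), cc l • (Y ^ l * v * Y ^ (Λ - l)))
        * Y ^ (i1 - 1 - q0 - Λ)) * (seg (wb Y v o S0) i1 (n - i1) * AR) := by
    have h1 : ∑ x ∈ J, c x • B (insert ((q0 : ℤ) - o + j x) S0)
        = ∑ l ∈ range (Λ + 1), cc l • B (insert ((q0 : ℤ) - o + (l : ℤ)) S0) :=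
      group fun l => B (insert ((q0 : ℤ) - o + (l : ℤ)) S0)
    rw [h1, mul_sum, sum_mul, mul_sum, sum_mul]
    refine sum_congr rfl fun l hl => ?_
    rw [mem_range] at hl
    rw [key l (by omega)]
    simp only [mul_smul_comm, smul_mul_assoc]
  rw [e2]
  have hc2 : (2 : ℝ) ^ S0.card ≤ 2 := by
    calc (2 : ℝ) ^ S0.card ≤ 2 ^ 1 := pow_le_pow_right₀ (by norm_num) hS0
      _ = 2 := by norm_num
  have hL : ‖AL * (seg (wb Y v o S0) 0 i0)‖ ≤ 2 :=
    (norm_mul_le _ _).trans (by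
      have := (norm_seg_wb hY hv o S0 0 i0).trans hc2
      calc ‖AL‖ * ‖seg (wb Y v o S0) 0 i0‖ ≤ 1 * 2 := by gcongr
        _ = 2 := by norm_num)
  have hR : ‖seg (wb Y v o S0) i1 (n - i1) * AR‖ ≤ 2 :=
    (norm_mul_le _ _).trans (by
      have := (norm_seg_wb hY hv o S0 i1 (n - i1)).trans hc2
      calc ‖seg (wb Y v o S0) i1 (n - i1)‖ * ‖AR‖ ≤ 2 * 1 := by gcongr
        _ = 2 := by norm_num)
  refine (norm_LR hL hR (by norm_num) (by norm_num)).trans ?_
  have h := label_bound hY M m Λ cc hmom v (q0 - i0) (i1 - 1 - q0 - Λ) (by omega) (by omega)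
  have hs := sl_nonneg Y M
  have h0 : 0 ≤ ∑ l ∈ range (Λ + 1), |cc l| := sum_nonneg fun _ _ => abs_nonneg _
  calc (2 : ℝ) * 2 * ‖_‖ ≤ 2 * 2 * ((∑ l ∈ range (Λ + 1), |cc l|) * (2 * Λ * sl Y M) ^ m * ‖v‖) :=
        mul_le_mul_of_nonneg_left h (by norm_num)
    _ ≤ 2 * 2 * ((∑ x ∈ J, |c x|) * (2 * Λ * sl Y M) ^ m * 2) := by gcongr
    _ = _ := by ring

/-- the free interval around `x`, when the other letter `y` is far -/
theorem free_interval {x y o : ℤ} {n : ℕ} {H s : ℕ} (h0 : (H : ℤ) ≤ o + x)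
    (h1 : o + x + H + s + 1 ≤ n) (hy : (H : ℤ) + s + 1 ≤ |x - y|) :
    ∃ i0 i1 q0 : ℕ, i1 ≤ n ∧ (∀ i : ℕ, i0 ≤ i → i < i1 → (i : ℤ) - o ∉ ({y} : Finset ℤ)) ∧
      i0 + H ≤ q0 ∧ q0 + H + s + 1 ≤ i1 ∧ (q0 : ℤ) - o = x := by
  obtain ⟨q0, hq0⟩ := Int.eq_ofNat_of_zero_le (show 0 ≤ o + x by omega)
  rcases le_total y x with hyx | hyx
  · -- y on the left
    rw [abs_of_nonneg (by omega)] at hy
    refine ⟨(o + y + 1).toNat, n, q0, le_rfl, ?_, ?_, ?_, by omega⟩
    · intro i hi1 hi2 hmem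
      rw [mem_singleton] at hmem
      omega
    · omega
    · omega
  · rw [abs_of_nonpos (by omega)] at hy
    refine ⟨0, min n (o + y).toNat, q0, min_le_left _ _, ?_, ?_, ?_, by omega⟩
    · intro i hi1 hi2 hmem
      rw [mem_singleton] at hmem
      have := lt_min_iff.mp hi2
      omega
    · omega
    · rw [le_min_iff]
      constructor <;> omega

/-- **Kill0** -/
theorem kill0 (hB : ∀ S, B S = AL * seg (wb Y v o S) 0 n * AR) (hAL : ‖AL‖ ≤ 1) (hAR : ‖AR‖ ≤ 1)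
    (hY : ‖Y‖ ≤ 1) (hv : ‖v‖ ≤ 2) {C : ℕ} {Q : ℤ} {M : ℕ} (h0 : (m : ℤ) * M + C * Q ≤ o)
    (h1 : o + C * Q + m * M + C * 3 ^ m + 1 ≤ n)
    (h2 : 8 * ((m : ℤ) * M + C * 3 ^ m + 1) ≤ C * Q) :
    Kill0 (normSeminorm ℝ A) B m C Q (8 * (2 * (C * 3 ^ m) * sl Y M) ^ m) := by
  intro x y hx hy
  have hCQ : 0 ≤ (C : ℤ) * Q := (by positivity : (0 : ℤ) ≤ 4 * |x|).trans hx
  have hx' : |x| ≤ (C : ℤ) * Q := by
    have := abs_nonneg x
    linarith
  have hx2 := abs_le.mp hx'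
  obtain ⟨i0, i1, q0, a1, a2, a3, a4, a5⟩ := free_interval (x := x) (y := y) (o := o) (n := n)
    (H := m * M) (s := C * 3 ^ m) (by push_cast; linarith [hx2.1]) (by push_cast; linarith [hx2.2])
    (by push_cast; linarith)
  have := mv0 hB hAL hAR hY hv (C := C) (S0 := {y}) (by simp) a1 a2 a3 a4
  rw [a5] at this
  rw [coe_normSeminorm]
  exact this

/-- the hypothesis of `StOne` -/
theorem killOne (hB : ∀ S, B S = AL * seg (wb Y v o S) 0 n * AR) (hAL : ‖AL‖ ≤ 1)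
    (hAR : ‖AR‖ ≤ 1) (hY : ‖Y‖ ≤ 1) (hv : ‖v‖ ≤ 2) {C : ℕ} {Q : ℤ} {M : ℕ}
    (h0 : 4 * ((m : ℤ) * M) + C * Q ≤ 4 * o)
    (h1 : 4 * o + C * Q + 4 * (m * M + C * 3 ^ m + 1) ≤ 4 * n) (x : ℤ) (hx : 4 * |x| ≤ C * Q) :
    normSeminorm ℝ A (∑ n : Fin m → Bool, sg n • B {x + C * Z n})
      ≤ 8 * (2 * (C * 3 ^ m) * sl Y M) ^ m := by
  have hx2 := abs_le.mp (show |x| ≤ |x| from le_rfl)
  have hmM : (0 : ℤ) ≤ (m : ℤ) * M := by positivity
  obtain ⟨q0, hq0⟩ := Int.eq_ofNat_of_zero_le (show 0 ≤ o + x by linarith [hx2.1])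
  have h3 : (0 : ℤ) ≤ (C : ℤ) * 3 ^ m := by positivity
  have := mv0 hB hAL hAR hY hv (C := C) (S0 := ∅) (by simp) (i0 := 0) (i1 := n) (q0 := q0)
    (M := M) (m := m) le_rfl (by simp) (by
      have : ((0 + m * M : ℕ) : ℤ) ≤ q0 := by push_cast; linarith [hx2.1]
      exact_mod_cast this) (by
      have : ((q0 + m * M + C * 3 ^ m + 1 : ℕ) : ℤ) ≤ n := by push_cast; linarith [hx2.2]
      exact_mod_cast this)
  have e : (q0 : ℤ) - o = x := by linarith
  rw [e] at this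
  rw [coe_normSeminorm]
  exact this

/-- **KillP** -/
theorem killP (hB : ∀ S, B S = AL * seg (wb Y v o S) 0 n * AR) (hAL : ‖AL‖ ≤ 1) (hAR : ‖AR‖ ≤ 1)
    (hY : ‖Y‖ ≤ 1) (hv : ‖v‖ ≤ 2) {C : ℕ} {Q F : ℤ} {M Lb : ℕ} (h0 : (m : ℤ) * M + C * Q ≤ o)
    (h1 : o + C * Q + m * M + Lb + 1 ≤ n) (h2 : 2 * ((m : ℤ) * M + Lb + 1) ≤ C * F) :
    KillP (normSeminorm ℝ A) B m Lb C Q F (8 * (2 * Lb * sl Y M) ^ m) := by
  intro x y hx _ hy ι J c j hj hc
  have hx2 := abs_le.mp hx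
  obtain ⟨i0, i1, q0, a1, a2, a3, a4, a5⟩ := free_interval (x := x) (y := y) (o := o) (n := n)
    (H := m * M) (s := Lb) (by push_cast; linarith [hx2.1]) (by push_cast; linarith [hx2.2])
    (by push_cast; linarith)
  have := mvP hB hAL hAR hY hv (S0 := {y}) (by simp) a1 a2 a3 a4 J c j hj hc
  rw [a5] at this
  rw [coe_normSeminorm]
  exact this

end Vale.Agent.P321.H576
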