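import Vale.Agent.P321.H576.TSpec

/-! # LB2, T-step: digits, tops, active sets (helper576) -/

namespace Vale.Agent.P321.H576

open Finset

/-! ### signs and digits -/

theorem sg_eq {ι : Type*} [Fintype ι] (n : ι → Bool) : sg n = 1 ∨ sg n = -1 := by
  unfold sg
  refine Finset.prod_induction _ (fun x : ℝ => x = 1 ∨ x = -1) ?_ (Or.inl rfl) ?_
  · rintro a b (rfl | rfl) (rfl | rfl) <;> norm_num
  · intro b _
    cases n b <;> simp

theorem sg_mul_self {ι : Type*} [Fintype ι] (n : ι → Bool) : sg n * sg n = 1 := by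
  rcases sg_eq n with h | h <;> rw [h] <;> norm_num

theorem sg_false {ι : Type*} [Fintype ι] : sg (fun _ : ι => false) = 1 := by
  simp [sg]

theorem sgE_eq {k m : ℕ} (n : E k → Fin m → Bool) : sgE n = 1 ∨ sgE n = -1 := by
  unfold sgE
  refine Finset.prod_induction _ (fun x : ℝ => x = 1 ∨ x = -1) ?_ (Or.inl rfl) ?_
  · rintro a b (rfl | rfl) (rfl | rfl) <;> norm_num
  · intro e _
    exact sg_eq _

theorem abs_sg {ι : Type*} [Fintype ι] (n : ι → Bool) : |sg n| = 1 := by
  rcases sg_eq n with h | h <;> rw [h] <;> norm_num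

theorem sgE_update {k m : ℕ} (n : E k → Fin m → Bool) (e : E k) (x : Fin m → Bool) :
    sgE (Function.update n e x) = sg x * sgE (Function.update n e fun _ => false) := by
  unfold sgE
  rw [← Finset.mul_prod_erase univ _ (mem_univ e), ← Finset.mul_prod_erase univ (fun e' =>
    sg (Function.update n e (fun _ => false) e')) (mem_univ e)]
  rw [Function.update_self, Function.update_self, sg_false, one_mul]
  congr 1
  refine Finset.prod_congr rfl fun e' he' => ?_
  have := (Finset.mem_erase.mp he').1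
  rw [Function.update_of_ne this, Function.update_of_ne this]

theorem val_le (b : Bool) : |val b| ≤ 1 := by cases b <;> simp [val]
theorem val_nonneg (b : Bool) : 0 ≤ val b := by cases b <;> simp [val]
theorem val_sub (b c : Bool) : |val b - val c| ≤ 1 := by cases b <;> cases c <;> simp [val]

theorem T0_add {m : ℕ} (a b : Fin m → ℤ) : T0 (fun i => a i + b i) = T0 a + T0 b := by
  simp [T0, add_mul, Finset.sum_add_distrib]
theorem T0_sub {m : ℕ} (a b : Fin m → ℤ) : T0 (fun i => a i - b i) = T0 a - T0 b := by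
  simp [T0, sub_mul, Finset.sum_sub_distrib]
theorem Te_sub {m : ℕ} (g a b : Fin m → ℤ) : Te g (fun i => a i - b i) = Te g a - Te g b := by
  simp [Te, sub_mul, Finset.sum_sub_distrib]
theorem Ts_sub {k m : ℕ} (g a b : E k → Fin m → ℤ) :
    Ts g (fun e i => a e i - b e i) = Ts g a - Ts g b := by
  unfold Ts
  rw [← Finset.sum_sub_distrib]
  exact Finset.sum_congr rfl fun e _ => Te_sub _ _ _
theorem Ts_neg {k m : ℕ} (g a : E k → Fin m → ℤ) : Ts g (fun e i => - a e i) = - Ts g a := by
  simp [Ts, Te, Finset.sum_neg_distrib]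

theorem S_update {k m : ℕ} (g : E k → Fin m → ℤ) (n : E k → Fin m → Bool) (e : E k)
    (x : Fin m → Bool) : S g (Function.update n e x)
      = S g (Function.update n e fun _ => false) + Te (g e) fun b => val (x b) := by
  unfold S Ts
  rw [← Finset.add_sum_erase univ (fun e' =>
    Te (g e') fun b => val (Function.update n e x e' b)) (mem_univ e),
    ← Finset.add_sum_erase univ (fun e' =>
    Te (g e') fun b => val (Function.update n e (fun _ => false) e' b)) (mem_univ e)]
  simp only [Function.update_self]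
  have h0 : Te (g e) (fun _ => val false) = 0 := by simp [Te, val]
  rw [h0, zero_add, add_comm]
  congr 1
  refine Finset.sum_congr rfl fun e' he' => ?_
  have := (Finset.mem_erase.mp he').1
  rw [Function.update_of_ne this, Function.update_of_ne this]

theorem Z_nonneg {m : ℕ} (n : Fin m → Bool) : 0 ≤ Z n := by
  unfold Z T0
  exact Finset.sum_nonneg fun b _ => mul_nonneg (val_nonneg _) (by positivity)

theorem Z_le {m : ℕ} (n : Fin m → Bool) : 2 * Z n ≤ 3 ^ m := by
  have h1 : Z n ≤ ∑ b : Fin m, (3 : ℤ) ^ (b : ℕ) := by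
    unfold Z T0
    refine Finset.sum_le_sum fun b _ => ?_
    have := val_le (n b)
    have h2 := val_nonneg (n b)
    have h3 : (0 : ℤ) < 3 ^ (b : ℕ) := by positivity
    rw [abs_of_nonneg h2] at this
    nlinarith
  have h2 : 2 * ∑ b : Fin m, (3 : ℤ) ^ (b : ℕ) = 3 ^ m - 1 := by
    rw [Fin.sum_univ_eq_sum_range (fun b => (3 : ℤ) ^ b) m]
    have := Commute.geom_sum₂_mul (Commute.all (3 : ℤ) 1) m
    have h3 := geom_sum_mul (3 : ℤ) m
    linarith
  linarith

theorem card_E (k : ℕ) : Fintype.card (E k) ≤ k ^ 2 := by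
  have : Fintype.card (E k) = k.choose 2 := by
    rw [Fintype.card_finset_len, Fintype.card_fin]
  rw [this]
  exact Nat.choose_le_pow k 2

variable {k m : ℕ} {d : Fin k → ℤ} {g : E k → Fin m → ℤ} {F Q G : ℤ}

theorem S_nonneg (hG : Gen d g F Q G) (n : E k → Fin m → Bool) : 0 ≤ S g n := by
  unfold S Ts Te
  exact Finset.sum_nonneg fun e _ => Finset.sum_nonneg fun b _ =>
    mul_nonneg (val_nonneg _) (hG.g0 e b)

theorem Te_nonneg (hG : Gen d g F Q G) (e : E k) (x : Fin m → Bool) :
    0 ≤ Te (g e) fun b => val (x b) := by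
  unfold Te
  exact Finset.sum_nonneg fun b _ => mul_nonneg (val_nonneg _) (hG.g0 e b)

theorem S_le (hG : Gen d g F Q G) (n : E k → Fin m → Bool) : 16 * S g n ≤ Q := by
  have hG0 : 0 ≤ G := by
    have h3 := hG.k3
    have h1 := hG.m1
    have e : E k := ⟨{(⟨0, by omega⟩ : Fin k), (⟨1, by omega⟩ : Fin k)}, by
      rw [Finset.card_pair]; simp⟩
    exact (hG.g0 e ⟨0, h1⟩).trans (hG.gG e ⟨0, h1⟩)
  have h1 : S g n ≤ ∑ _e : E k, (m : ℤ) * G := by
    unfold S Ts
    refine Finset.sum_le_sum fun e _ => ?_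
    have : (m : ℤ) * G = ∑ _b : Fin m, G := by simp
    rw [this]
    unfold Te
    refine Finset.sum_le_sum fun b _ => ?_
    have h1 := val_le (n e b)
    have h2 := val_nonneg (n e b)
    rw [abs_of_nonneg h2] at h1
    have h3 := hG.g0 e b
    have h4 := hG.gG e b
    nlinarith
  rw [Finset.sum_const, Finset.card_univ, nsmul_eq_mul] at h1
  have h2 : (Fintype.card (E k) : ℤ) ≤ (k : ℤ) ^ 2 := by exact_mod_cast card_E k
  have h3 : (Fintype.card (E k) : ℤ) * ((m : ℤ) * G) ≤ (k : ℤ) ^ 2 * (m * G) :=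
    mul_le_mul_of_nonneg_right h2 (by positivity)
  have := hG.GQ
  nlinarith

theorem F_pos (hG : Gen d g F Q G) : 3 ≤ F := by
  have h := hG.F3
  have : (3 : ℤ) ^ 1 ≤ 3 ^ m := pow_le_pow_right₀ (by norm_num) hG.m1
  linarith

theorem Z_le_F (hG : Gen d g F Q G) (n : Fin m → Bool) : 2 * Z n ≤ F :=
  (Z_le n).trans hG.F3

/-! ### tops -/

/-- every pair misses a train -/
theorem exists_notMem (hG : Gen d g F Q G) (e : E k) : ∃ i, i ∉ e.1 := by
  by_contra h
  push Not at h
  have : (univ : Finset (Fin k)) ⊆ e.1 := fun i _ => h i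
  have h2 := card_le_card this
  rw [card_univ, Fintype.card_fin, e.2] at h2
  have := hG.k3
  omega

theorem exists_ne (hG : Gen d g F Q G) : ∃ i j : Fin k, i ≠ j := by
  have := hG.k3
  exact ⟨⟨0, by omega⟩, ⟨1, by omega⟩, by simp⟩

theorem exists_ne' (hG : Gen d g F Q G) (i : Fin k) : ∃ j : Fin k, i ≠ j := by
  obtain ⟨a, b, hab⟩ := exists_ne hG
  by_cases h : i = a
  · exact ⟨b, h ▸ hab⟩
  · exact ⟨a, h⟩

/-- tops at distance at most `3 F` have the same digits `n_e` -/
theorem top_close (hG : Gen d g F Q G) {n0 n0' : Fin m → Bool} {n n' : E k → Fin m → Bool}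
    (h : |(Z n0 + S g n) - (Z n0' + S g n')| ≤ 3 * F) : n = n' := by
  set δ0 : Fin m → ℤ := fun b => val (n0 b) - val (n0' b) with hδ0
  set δ : E k → Fin m → ℤ := fun e b => val (n e b) - val (n' e b) with hδ
  have e1 : (Z n0 + S g n) - (Z n0' + S g n') = T0 δ0 + Ts g δ := by
    rw [hδ0, hδ, T0_sub, Ts_sub]
    unfold Z S
    ring
  obtain ⟨i, j, hij⟩ := exists_ne hG
  obtain ⟨η, hη, e2⟩ := hG.gen2 i j hij _ h δ0 δ0 δ δ (fun b => val_sub _ _)
    (fun b => val_sub _ _) (fun e b => val_sub _ _) (fun e b => val_sub _ _)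
    (by rw [e1, sub_self]; exact dvd_zero _) (by rw [e1, sub_self]; exact dvd_zero _)
  have key : ∀ i, ∀ e : E k, i ∉ e.1 → ∀ b, δ e b = 0 := by
    intro i
    refine (hG.gen1 i (fun b => δ0 b - η b) δ (fun b => ?_) (fun e b => val_sub _ _) ?_).2
    · have h1 := abs_le.mp (val_sub (n0 b) (n0' b))
      have h2 := abs_le.mp (hη b)
      rw [abs_le]
      change -2 ≤ (val (n0 b) - val (n0' b)) - η b ∧ (val (n0 b) - val (n0' b)) - η b ≤ 2
      constructor <;> linarith [h1.1, h1.2, h2.1, h2.2]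
    · rw [T0_sub]
      have : T0 δ0 - T0 η + Ts g δ = 0 := by linarith [e1, e2]
      rw [this]
      exact dvd_zero _
  funext e b
  obtain ⟨i, hi⟩ := exists_notMem hG e
  have := key i e hi b
  simp only [hδ] at this
  cases h1 : n e b <;> cases h2 : n' e b <;> simp [val, h1, h2] at this ⊢

theorem Z_inj (hG : Gen d g F Q G) {n0 n0' : Fin m → Bool} (h : Z n0 = Z n0') : n0 = n0' := by
  obtain ⟨i, -, -⟩ := exists_ne hG
  have := (hG.gen1 i (fun b => val (n0 b) - val (n0' b)) (fun _ _ => 0)
    (fun b => (val_sub _ _).trans (by norm_num)) (fun _ _ => by simp) ?_).1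
  · funext b
    have h1 := this b
    cases h2 : n0 b <;> cases h3 : n0' b <;> simp [val, h2, h3] at h1 ⊢
  · rw [T0_sub]
    have h0 : Ts g (fun _ _ => 0) = 0 := by simp [Ts, Te]
    rw [h0]
    change d i ∣ Z n0 - Z n0' + 0
    rw [h, sub_self, add_zero]
    exact dvd_zero _

/-- two different trains can be active at `s(n) + a`, `s(n') + a` only if `a` is in direction 0 -/
theorem two_hit (hG : Gen d g F Q G) {i j : Fin k} (hij : i ≠ j) {a : ℤ} (ha : |a| ≤ 3 * F)
    {n n' : E k → Fin m → Bool} (h1 : Act d g i (S g n + a)) (h2 : Act d g j (S g n' + a)) :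
    ∃ n0 : Fin m → Bool, a = Z n0 := by
  obtain ⟨a0, a1, h1⟩ := h1
  obtain ⟨b0, b1, h2⟩ := h2
  have e1 : S g n + a - (Z a0 + S g a1)
      = a - (T0 (fun b => val (a0 b)) + Ts g (fun e b => val (a1 e b) - val (n e b))) := by
    rw [Ts_sub]; unfold Z S; ring
  have e2 : S g n' + a - (Z b0 + S g b1)
      = a - (T0 (fun b => val (b0 b)) + Ts g (fun e b => val (b1 e b) - val (n' e b))) := by
    rw [Ts_sub]; unfold Z S; ring
  rw [e1] at h1
  rw [e2] at h2
  obtain ⟨η, hη, e3⟩ := hG.gen2 i j hij a ha _ _ _ _ (fun b => val_le _) (fun b => val_le _)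
    (fun e b => val_sub _ _) (fun e b => val_sub _ _) h1 h2
  refine ⟨a0, ?_⟩
  have := (hG.gen1 i (fun b => η b - val (a0 b))
    (fun e b => -(val (a1 e b) - val (n e b))) (fun b => ?_) (fun e b => ?_) ?_).1
  · rw [e3]
    unfold Z
    congr 1
    funext b
    have := this b
    linarith
  · have h1 := abs_le.mp (val_le (a0 b))
    have h2 := abs_le.mp (hη b)
    rw [abs_le]
    constructor <;> linarith [h1.1, h1.2, h2.1, h2.2]
  · rw [abs_neg]; exact val_sub _ _
  · rw [T0_sub, Ts_neg, ← e3]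
    have : a - T0 (fun b => val (a0 b)) + -Ts g (fun e b => val (a1 e b) - val (n e b))
      = a - (T0 (fun b => val (a0 b)) + Ts g (fun e b => val (a1 e b) - val (n e b))) := by ring
    rw [this]
    exact h1

theorem act_top {t : ℤ} (h : Top g t) (i : Fin k) : Act d g i t := by
  obtain ⟨n0, n, rfl⟩ := h
  exact ⟨n0, n, by rw [sub_self]; exact dvd_zero _⟩

/-- an offset which is not in direction 0 is never a top -/
theorem not_top (hG : Gen d g F Q G) {a : ℤ} (ha : |a| ≤ 3 * F) (hZ : ∀ n0 : Fin m → Bool, a ≠ Z n0)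
    (n : E k → Fin m → Bool) : ¬ Top g (S g n + a) := by
  intro h
  obtain ⟨i, j, hij⟩ := exists_ne hG
  obtain ⟨n0, h0⟩ := two_hit hG hij ha (act_top (d := d) h i) (act_top (d := d) h j)
  exact hZ n0 h0

/-- the activity of train `i` does not see the digits of `e ∋ i` -/
theorem act_update (hG : Gen d g F Q G) {i : Fin k} {e : E k} (hi : i ∈ e.1) (a : ℤ)
    (n : E k → Fin m → Bool) (x y : Fin m → Bool) :
    Act d g i (S g (Function.update n e x) + a) → Act d g i (S g (Function.update n e y) + a) := by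
  rintro ⟨n0, n', h⟩
  refine ⟨n0, n', ?_⟩
  rw [S_update] at h ⊢
  have hx : d i ∣ Te (g e) fun b => val (x b) :=
    Finset.dvd_sum fun b _ => Dvd.dvd.mul_left (hG.dvd i e b hi) _
  have hy : d i ∣ Te (g e) fun b => val (y b) :=
    Finset.dvd_sum fun b _ => Dvd.dvd.mul_left (hG.dvd i e b hi) _
  have h2 := dvd_add (dvd_sub h hx) hy
  have e1 : S g (Function.update n e fun _ => false) + (Te (g e) fun b => val (x b)) + a
      - (Z n0 + S g n') - (Te (g e) fun b => val (x b)) + (Te (g e) fun b => val (y b))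
      = S g (Function.update n e fun _ => false) + (Te (g e) fun b => val (y b)) + a
      - (Z n0 + S g n') := by ring
  rwa [e1] at h2

theorem mem_act {i : Fin k} {t : ℤ} : i ∈ act d g t ↔ Act d g i t := by
  classical
  simp [act]

/-- the active set at `s(n) + a` does not see the digits of `e`, if all the trains which can be
active there are in `e` -/
theorem act_eq_update (hG : Gen d g F Q G) {e : E k} {a : ℤ}
    (he : ∀ i, (∃ n, Act d g i (S g n + a)) → i ∈ e.1)
    (n : E k → Fin m → Bool) (x y : Fin m → Bool) :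
    act d g (S g (Function.update n e x) + a) = act d g (S g (Function.update n e y) + a) := by
  ext i
  rw [mem_act, mem_act]
  constructor
  · intro h; exact act_update hG (he i ⟨_, h⟩) a n x y h
  · intro h; exact act_update hG (he i ⟨_, h⟩) a n y x h

end Vale.Agent.P321.H576
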